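import Vale.Agent.P299.S.Conv
import Vale.Agent.P299.Q.Flattening
import Vale.Agent.P299.Q.Tensor

/-!
# Comparison of the languages `S` and `Q`: morphisms and differential forms
-/

open CategoryTheory TopologicalSpace Opposite AlgebraicGeometry

namespace Vale.Agent.P299.S

variable {X Y : Q.Var}

theorem pull_eq (φ : Q.DomHom X Y) : (sh φ).pull = φ.pull := rfl

theorem birational_iff (φ : Q.DomHom X Y) : φ.Birational ↔ (sh φ).Birational := Iff.rfl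

theorem isPullback_iff (φ : Q.DomHom X Y) (B : Q.Div Y.X) (D : Q.Div X.X) :
    Q.IsPullback φ B D ↔ IsPullback (sh φ) B D := Iff.rfl

theorem mem_locRing_iff (f : X.K) (x : X.X) : f ∈ Q.locRing X x ↔ Reg (X := pv X) f x := Iff.rfl

theorem regDer_iff (v : X.Der) (x : X.X) : Q.RegDer x v ↔ RegDer (X := pv X) v x :=
  Q.regDer_iff_locRing

theorem dim_eq : dim (pv X) = X.dim := rfl

theorem isValue_iff {N : ℕ} (e : X.Ten N) (x : X.X) (f : X.K) :
    IsValue (X := pv X) e x f ↔ ∃ v : Fin N → X.Der, (∀ i, Q.RegDer x (v i)) ∧ e v = f := by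
  constructor
  · rintro ⟨v, hv, h⟩
    exact ⟨v, fun i => (regDer_iff _ _).2 (hv i), h⟩
  · rintro ⟨v, hv, h⟩
    exact ⟨v, fun i => (regDer_iff _ _).1 (hv i), h⟩

theorem isTwTensor_iff {N : ℕ} (e : X.Ten N) (D : Q.Div X.X) :
    Q.IsTwTensor e D ↔ IsTwTensor (X := pv X) e D := by
  constructor
  · intro h x f hf hx hf0
    obtain ⟨v, hv, rfl⟩ := (isValue_iff e x f).1 hf
    exact h x hx v hv hf0
  · intro h x hx v hv hf0
    exact h x (e v) ((isValue_iff e x _).2 ⟨v, hv, rfl⟩) hx hf0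

theorem isDivTensor_iff {N : ℕ} (e : X.Ten N) (D : Q.Div X.X) :
    Q.IsDivTensor e D ↔ IsDivTensor (X := pv X) e D := by
  refine forall₂_congr fun x _ => ?_
  have h : {n : ℤ | ∃ v : Fin N → X.Der, (∀ i, Q.RegDer x (v i)) ∧ e v ≠ 0 ∧
      Scheme.ord (e v) x = n} =
      {n : ℤ | ∃ f, IsValue (X := pv X) e x f ∧ f ≠ 0 ∧ ord (X := pv X) f x = n} := by
    ext n
    constructor
    · rintro ⟨v, hv, h0, h1⟩
      exact ⟨e v, (isValue_iff e x _).2 ⟨v, hv, rfl⟩, h0, h1⟩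
    · rintro ⟨f, hf, h0, h1⟩
      obtain ⟨v, hv, rfl⟩ := (isValue_iff e x f).1 hf
      exact ⟨v, hv, h0, h1⟩
  rw [h]
  rfl

theorem isAlt_iff {N : ℕ} (e : X.Ten N) : Q.IsAlt e ↔ IsAlt (X := pv X) e := Iff.rfl

theorem nonzero_iff {N : ℕ} (e : X.Ten N) : Nonzero (X := pv X) e ↔ e ≠ 0 := by
  constructor
  · rintro ⟨v, hv⟩ rfl
    exact hv rfl
  · intro h
    by_contra hcon
    apply h
    ext v
    by_contra hv
    exact hcon ⟨v, hv⟩

theorem isCanonical_iff (κ : Q.Div X.X) :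
    Q.IsCanonicalDivisor κ ↔ IsCanonical (X := pv X) κ := by
  constructor
  · rintro ⟨ω, h1, h2, h3⟩
    exact ⟨ω, (nonzero_iff ω).2 h1, h2, (isDivTensor_iff ω κ).1 h3⟩
  · rintro ⟨ω, h1, h2, h3⟩
    exact ⟨ω, (nonzero_iff ω).1 h1, h2, (isDivTensor_iff ω κ).2 h3⟩

/-! ### The published theorems -/

theorem flattening (h : Flattening) : Q.Flattening := by
  intro Z k
  obtain ⟨Y, Z', Z₁, a, b, c, μ, φ, h1, h2, h3, h4, h5, h6, h7, h8, h9⟩ := h (sv Z) k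
  exact ⟨qv Y, qv Z', Z₁, h1, a, b, c, qh μ, qh φ, h2, h3, h4, h5, h6, h7, h8, h9⟩

theorem nakayamaCriterion (h : NakayamaCriterion) : Q.NakayamaCriterion := by
  intro Y D B hDB
  rw [isNef_iff]
  refine h (sv Y) D B fun Y' p G hp hG => ?_
  obtain ⟨c, hc⟩ := hDB (qv Y') (qh p) hp G hG
  refine ⟨c, fun j => ?_⟩
  obtain ⟨s, hs, hs0, hP⟩ := hc j
  exact ⟨s, hs0, (mem_H0_iff _ _).1 hs, hP⟩

end Vale.Agent.P299.S
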