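import Vale.Agent.P299.S.Defs

/-!
# Bochner vanishing, in the language `S`
-/

open CategoryTheory TopologicalSpace Opposite AlgebraicGeometry

namespace Vale.Agent.P299.S

/-- [Yau; Kobayashi, Differential geometry of complex vector bundles, Theorem III.1.9] Bochner
vanishing: suppose that `-K_X` has a smooth semipositive metric, and let `H` be ample. By Yau's
theorem there is a Kähler metric in the class of `H` with nonnegative Ricci curvature; so the mean
curvature of `(Ω^1_X)^{⊗N}` is nonpositive. The line bundle `O(-D)` has a metric with constant mean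
curvature, a positive multiple of `-D·H^{n-1}`. So `(Ω^1_X)^{⊗N} ⊗ O(-D)` has no nonzero holomorphic
section if `D·H^{n-1} > 0`. -/
def BochnerVanishing : Prop :=
  ∀ (X : Var) (κ D H : Div X.toPVar) (N : ℕ) (e : Ten X.toPVar N) (i : Fin (dim X.toPVar)),
    IsCanonical κ → SemiPos (-κ) → Nonzero e → IsTwTensor e (-D) → IsAmple H →
    inter (Function.update (fun _ => H) i D) ≤ 0

end Vale.Agent.P299.S
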