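import Vale.Agent.P299.S.Conv
import Vale.Agent.P299.Q.SheafIso

/-!
# Comparison of the languages `S` and `Q`: sheaves and their cohomology
-/

open CategoryTheory TopologicalSpace Opposite AlgebraicGeometry

namespace Vale.Agent.P299.S

section General

variable {T : TopCat.{0}} {K : Type} [AddCommGroup K] [Module ℂ K] [PreirreducibleSpace T]

theorem isSheafOf_constSheaf (M : T → Submodule ℂ K) :
    IsSheafOf (fun x f => f ∈ M x) (Q.constSheaf M) := by
  classical
  let e : ∀ U : Opens T, Q.constSec M U →ₗ[ℂ] K := fun U =>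
    if h : Nonempty U then
      { toFun := fun s => s.1 h.some
        map_add' := fun _ _ => rfl
        map_smul' := fun _ _ => rfl }
    else 0
  have he : ∀ (U : Opens T) (x : U) (s : Q.constSec M U), e U s = s.1 x := by
    intro U x s
    have h : Nonempty U := ⟨x⟩
    have h1 : e U = { toFun := fun s => s.1 h.some
                      map_add' := fun _ _ => rfl
                      map_smul' := fun _ _ => rfl } := dif_pos h
    rw [h1]
    exact s.2.1 _ _
  have hinj : ∀ U : Opens T, Nonempty U → Function.Injective (e U) := by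
    intro U hU s t hst
    obtain ⟨x⟩ := hU
    have h1 : s.1 x = t.1 x := by
      rw [← he U x s, ← he U x t]
      exact hst
    apply Subtype.ext
    funext y
    rw [s.2.1 y x, t.2.1 y x, h1]
  have hrange : ∀ U : Opens T, Nonempty U → ∀ f : K, (∃ s, e U s = f) ↔ ∀ x ∈ U, f ∈ M x := by
    intro U hU f
    obtain ⟨x⟩ := hU
    constructor
    · rintro ⟨s, rfl⟩ y hy
      rw [he U ⟨y, hy⟩ s]
      exact s.2.2 ⟨y, hy⟩
    · intro hf
      refine ⟨⟨fun _ => f, fun _ _ => rfl, fun y => hf y.1 y.2⟩, ?_⟩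
      exact he U x _
  have hres : ∀ (U V : Opens T) (h : V ≤ U), Nonempty V → ∀ s : Q.constSec M U,
      e V (Q.constRes M h s) = e U s := by
    intro U V h hV s
    obtain ⟨x⟩ := hV
    rw [he V x, he U ⟨x.1, h x.2⟩]
    rfl
  let g : ∀ U : Opens T, Sec (Q.constSheaf M) U ⟶ ModuleCat.of ℂ K := fun U =>
    ModuleCat.ofHom (e U)
  refine ⟨g, fun U hU => ⟨?_, fun f => ?_⟩, fun U V h hV => ?_⟩
  · exact (ModuleCat.mono_iff_injective (g U)).2 (hinj U hU)
  · exact hrange U hU f
  · apply ModuleCat.hom_ext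
    apply LinearMap.ext
    intro s
    exact hres U V h hV s

theorem IsSheafOf.nonempty_iso {M : T → Submodule ℂ K} {F : Shf T}
    (h : IsSheafOf (fun x f => f ∈ M x) F) : Nonempty (F ≅ Q.constSheaf M) := by
  obtain ⟨e, he, hres⟩ := h
  refine Q.nonempty_iso_constSheaf M F (fun U => (e U).hom) (fun U hU => ?_) (fun U hU f => ?_)
    fun U V h hV s => ?_
  · have := (he U hU.to_subtype).1
    exact (ModuleCat.mono_iff_injective _).1 this
  · exact (he U hU.to_subtype).2 f
  · have h1 := hres U V h hV.to_subtype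
    have h2 := congrArg (fun g : Sec F U ⟶ ModuleCat.of ℂ K => g.hom s) h1
    exact h2

omit [PreirreducibleSpace T] in
theorem dimH_eq (F : Shf T) (i : ℕ) : dimH F i = Module.finrank ℂ (Q.Coh F i) := rfl

omit [PreirreducibleSpace T] in
theorem vanH_eq (F : Shf T) (i : ℕ) : VanH F i ↔ Subsingleton (Q.Coh F i) := Iff.rfl

theorem hdim_constSheaf (M : T → Submodule ℂ K) (i : ℕ) :
    hdim (fun x f => f ∈ M x) i = Module.finrank ℂ (Q.Coh (Q.constSheaf M) i) := by
  have h : {n | ∃ F : Shf T, IsSheafOf (fun x f => f ∈ M x) F ∧ n = dimH F i} =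
      {Module.finrank ℂ (Q.Coh (Q.constSheaf M) i)} := by
    apply Set.eq_singleton_iff_unique_mem.2
    refine ⟨⟨Q.constSheaf M, isSheafOf_constSheaf M, rfl⟩, ?_⟩
    rintro n ⟨F, hF, rfl⟩
    obtain ⟨f⟩ := hF.nonempty_iso
    exact Q.finrank_coh_congr f i
  unfold hdim
  rw [h]
  exact csInf_singleton _

theorem vanH_constSheaf (M : T → Submodule ℂ K) (i : ℕ) :
    Subsingleton (Q.Coh (Q.constSheaf M) i) ↔
      ∀ F : Shf T, IsSheafOf (fun x f => f ∈ M x) F → VanH F i := by
  constructor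
  · intro h F hF
    obtain ⟨f⟩ := hF.nonempty_iso
    exact Q.subsingleton_ext_congr _ f.symm i h
  · intro h
    exact h _ (isSheafOf_constSheaf M)

theorem hdim_of_iff (M : T → Submodule ℂ K) (M' : T → K → Prop) (h : ∀ x f, M' x f ↔ f ∈ M x)
    (i : ℕ) : hdim M' i = Module.finrank ℂ (Q.Coh (Q.constSheaf M) i) := by
  have h1 : M' = fun x f => f ∈ M x := by
    funext x f
    exact propext (h x f)
  rw [h1]
  exact hdim_constSheaf M i

theorem vanH_of_iff (M : T → Submodule ℂ K) (M' : T → K → Prop) (h : ∀ x f, M' x f ↔ f ∈ M x)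
    (i : ℕ) : Subsingleton (Q.Coh (Q.constSheaf M) i) ↔ ∀ F : Shf T, IsSheafOf M' F → VanH F i := by
  have h1 : M' = fun x f => f ∈ M x := by
    funext x f
    exact propext (h x f)
  rw [h1]
  exact vanH_constSheaf M i

end General

section Special

variable {X Y : Q.Var}

theorem secAt_iff (D : Q.Div X.X) (x : X.X) (f : X.K) :
    SecAt (X := pv X) D x f ↔ f ∈ Q.polar (Q.coef D) x := Q.mem_polar.symm

/-- The dimension of the cohomology of an invariant direct image. -/
theorem hdim_eq_hh {S : TopCat.{0}} [PreirreducibleSpace S] (q : X.X → S) (E : Submodule ℂ X.K)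
    (D : Q.Div X.X) (M' : S → X.K → Prop)
    (h : ∀ s f, M' s f ↔ f ∈ E ∧ ∀ x, q x = s → SecAt (X := pv X) D x f) (i : ℕ) :
    hdim M' i = Q.hh q E D i := by
  refine hdim_of_iff _ M' (fun s f => ?_) i
  rw [h s f]
  simp only [Submodule.mem_inf, Submodule.mem_iInf]
  exact Iff.rfl

/-- The vanishing of the cohomology of an invariant direct image. -/
theorem vanH_iff_coh {S : TopCat.{0}} [PreirreducibleSpace S] (q : X.X → S) (E : Submodule ℂ X.K)
    (D : Q.Div X.X) (M' : S → X.K → Prop)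
    (h : ∀ s f, M' s f ↔ f ∈ E ∧ ∀ x, q x = s → SecAt (X := pv X) D x f) (i : ℕ) :
    Subsingleton (Q.Coh (Q.secSheaf q E D) i) ↔ ∀ F : Shf S, IsSheafOf M' F → VanH F i := by
  refine vanH_of_iff _ M' (fun s f => ?_) i
  rw [h s f]
  simp only [Submodule.mem_inf, Submodule.mem_iInf]
  exact Iff.rfl

theorem hY_eq (φ : Q.DomHom X Y) (D : Q.Div X.X) (i : ℕ) : hY (sh φ) D i = Q.hY φ D i :=
  hdim_eq_hh (S := (Y.X : TopCat.{0})) φ.f ⊤ D (OverAt (sh φ) D)
    (fun _ _ => ⟨fun h => ⟨trivial, h⟩, fun h => h.2⟩) i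

theorem hX_eq (D : Q.Div X.X) (i : ℕ) : hX (X := pv X) D i = Q.hX D i :=
  hdim_eq_hh (S := (X.X : TopCat.{0})) id ⊤ D (fun x => SecAt (X := pv X) D x)
    (fun s f => ⟨fun h => ⟨trivial, fun x hx => by
      have hx' : x = s := hx
      rw [hx']
      exact h⟩, fun h => h.2 s rfl⟩) i

theorem vanH_iff (φ : Q.DomHom X Y) (D : Q.Div X.X) (i : ℕ) :
    Subsingleton (Q.Coh (Q.secSheaf (S := (Y.X : TopCat.{0})) φ.f ⊤ D) i) ↔
      ∀ F : Shf (Sp Y.X), IsSheafOf (OverAt (sh φ) D) F → VanH F i :=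
  vanH_iff_coh (S := (Y.X : TopCat.{0})) φ.f ⊤ D (OverAt (sh φ) D)
    (fun _ _ => ⟨fun h => ⟨trivial, h⟩, fun h => h.2⟩) i

theorem chi_eq (hdim : dim (pv X) = X.dim) (D : Q.Div X.X) : chi (X := pv X) D = Q.chi D := by
  unfold chi Q.chi
  rw [hdim]
  refine Finset.sum_congr rfl fun i _ => ?_
  rw [hX_eq]
  rfl

theorem inter_eq (hdim : dim (pv X) = X.dim) (D : Fin (dim (pv X)) → Q.Div X.X) :
    inter (X := pv X) D = Q.inter (fun i => D (Fin.cast hdim.symm i)) := by
  have key : ∀ (n m : ℕ) (h : n = m) (D : Fin n → Q.Div X.X),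
      ∑ S : Finset (Fin n), (-1 : ℤ) ^ S.card * Q.chi (-∑ i ∈ S, D i) =
      ∑ S : Finset (Fin m), (-1 : ℤ) ^ S.card * Q.chi (-∑ i ∈ S, D (Fin.cast h.symm i)) := by
    intro n m h D
    subst h
    rfl
  unfold inter Q.inter
  rw [← key (dim (pv X)) X.dim hdim D]
  exact Finset.sum_congr rfl fun S _ =>
    congrArg (fun z : ℤ => (-1) ^ S.card * z) (chi_eq hdim (-∑ i ∈ S, D i))

theorem inter_const_eq (hdim : dim (pv X) = X.dim) (H : Q.Div X.X) :
    inter (X := pv X) (fun _ => H) = Q.inter (fun _ : Fin X.dim => H) :=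
  inter_eq hdim _

theorem inter_update_eq (hdim : dim (pv X) = X.dim) (H D : Q.Div X.X) (i : Fin X.dim) :
    inter (X := pv X) (Function.update (fun _ => H) (Fin.cast hdim.symm i) D) =
      Q.inter (Function.update (fun _ : Fin X.dim => H) i D) := by
  refine (inter_eq hdim _).trans (congrArg Q.inter ?_)
  funext j
  by_cases hj : j = i
  · subst hj
    rw [Function.update_self]
    exact Function.update_self (Fin.cast hdim.symm j) D (fun _ : Fin (dim (pv X)) => H)
  · rw [Function.update_of_ne hj]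
    have h1 : Fin.cast hdim.symm j ≠ Fin.cast hdim.symm i := fun h => hj (Fin.cast_injective _ h)
    exact Function.update_of_ne h1 D (fun _ : Fin (dim (pv X)) => H)

end Special

end Vale.Agent.P299.S
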