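import Mathlib.AlgebraicGeometry.OrderOfVanishing
import Mathlib.AlgebraicGeometry.Noetherian
import Mathlib.AlgebraicGeometry.Morphisms.Proper
import Mathlib.AlgebraicGeometry.Morphisms.Smooth
import Mathlib.Analysis.Calculus.ContDiff.Defs
import Mathlib.Analysis.Calculus.LineDeriv.Basic
import Mathlib.Analysis.SpecialFunctions.Log.Basic
import Mathlib.Analysis.Complex.Basic
import Mathlib.RingTheory.Derivation.Basic
import Mathlib.LinearAlgebra.Multilinear.Basic
import Mathlib.Algebra.Polynomial.Eval.Defs
import Vale.Agent.P299.S.Coh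

/-!
# Smooth projective varieties: divisors, metrics, differential forms, intersection numbers
-/

open CategoryTheory TopologicalSpace Opposite AlgebraicGeometry

namespace Vale.Agent.P299.S

/-! ### Schemes -/

/-- The set of the points of the scheme `X`. -/
def Pt (X : Scheme.{0}) : Type := X

/-- The topological space of the scheme `X`. -/
def Sp (X : Scheme.{0}) : TopCat.{0} := TopCat.of X

/-- The image of the point `x` under the morphism `f`. -/
def im {X Y : Scheme.{0}} (f : X ⟶ Y) (x : Pt X) : Pt Y := f x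

/-- The codimension of the point `x`. -/
noncomputable def codim {X : Scheme.{0}} (x : Pt X) : ℕ∞ := Order.coheight (α := X) x

/-- The point `x` lies in the closure of `y`. -/
def Spe {X : Scheme.{0}} (y x : Pt X) : Prop := @Specializes X _ y x

/-- The point `x` is closed. -/
def Closed {X : Scheme.{0}} (x : Pt X) : Prop := @IsClosed X _ {x}

/-- The local ring of `X` at `x`. -/
noncomputable def stk (X : Scheme.{0}) (x : Pt X) : CommRingCat.{0} := X.presheaf.stalk x

/-- The map of local rings `O_{X,x} → O_{X,y}`, for `x` in the closure of `y`. -/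
noncomputable def sp {X : Scheme.{0}} {y x : Pt X} (h : Spe y x) : stk X x ⟶ stk X y :=
  X.presheaf.stalkSpecializes h

/-- The map of local rings `O_{Y,f(x)} → O_{X,x}`. -/
noncomputable def stkMap {X Y : Scheme.{0}} (f : X ⟶ Y) (x : Pt X) : stk Y (im f x) ⟶ stk X x :=
  f.stalkMap x

/-- The generic point. -/
noncomputable def gp (X : Scheme.{0}) [IsIntegral X] : Pt X := genericPoint X

theorem spe_gp {X : Scheme.{0}} [IsIntegral X] (x : Pt X) : Spe (gp X) x :=
  (genericPoint_spec X).specializes trivial

/-- The scheme `Spec ℂ`. -/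
noncomputable def SpecC : Scheme.{0} := Spec (CommRingCat.of ℂ)

/-! ### Varieties -/

/-- A smooth proper variety over `ℂ`. -/
structure PVar where
  /-- the scheme -/
  X : Scheme.{0}
  /-- the structure morphism -/
  str : X ⟶ SpecC
  [int : IsIntegral X]
  [smooth : Smooth str]
  [proper : IsProper str]

attribute [instance] PVar.int PVar.smooth PVar.proper

instance (X : PVar) : IsLocallyNoetherian X.X := by
  have : IsLocallyNoetherian SpecC := inferInstanceAs (IsLocallyNoetherian (Spec (CommRingCat.of ℂ)))
  exact LocallyOfFiniteType.isLocallyNoetherian X.str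

/-- The function field `ℂ(X)`. -/
def K (X : PVar) : Type := stk X.X (gp X.X)

noncomputable instance instFieldK (X : PVar) : Field (K X) :=
  (inferInstance : Field X.X.functionField)

/-- The ring of global functions on the scheme `X`. -/
noncomputable def Gam (X : Scheme.{0}) : CommRingCat.{0} := X.presheaf.obj (op ⊤)

/-- The complex numbers, as functions on `Spec ℂ`. -/
noncomputable def num : CommRingCat.of ℂ ⟶ Gam SpecC :=
  Iso.inv (Scheme.ΓSpecIso (CommRingCat.of ℂ))

/-- The pull back of functions. -/
noncomputable def top {X Y : Scheme.{0}} (f : X ⟶ Y) : Gam Y ⟶ Gam X := f.appTop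

/-- The germ of a function at the point `x`. -/
noncomputable def germ {X : Scheme.{0}} (x : Pt X) : Gam X ⟶ stk X x := X.presheaf.germ ⊤ x trivial

noncomputable instance instAlgebraK (X : PVar) : Algebra ℂ (K X) :=
  (num ≫ top X.str ≫ germ (gp X.X)).hom.toAlgebra

/-- The constant functions. -/
noncomputable def cst (X : PVar) (c : ℂ) : K X := algebraMap ℂ (K X) c

/-- The rational function `f` is regular at the point `x`. -/
def Reg {X : PVar} (f : K X) (x : Pt X.X) : Prop :=
  ∃ a : stk X.X x, (sp (spe_gp x)).hom a = f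

/-- The order of the rational function `f` at a point `x` of codimension one. -/
noncomputable def ord {X : PVar} (f : K X) (x : Pt X.X) : ℤ := Scheme.ord (X := X.X) f x

/-! ### Divisors -/

/-- A divisor on `X`: an integer for every point of codimension one, almost all zero. -/
abbrev Div (X : PVar) : Type := {x : Pt X.X // codim x = 1} →₀ ℤ

/-- The coefficient of the divisor `D` at the point `x` (zero unless `x` has codimension one). -/
noncomputable def coef {X : PVar} (D : Div X) (x : Pt X.X) : ℤ :=
  open Classical in if h : codim x = 1 then D ⟨x, h⟩ else 0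

/-- The rational function `f` generates `O_X(D)` near the point `x`: `div f + D = 0` near `x`. -/
def GenAt {X : PVar} (D : Div X) (f : K X) (x : Pt X.X) : Prop :=
  f ≠ 0 ∧ ∀ y : Pt X.X, codim y = 1 → Spe y x → ord f y + coef D y = 0

/-- The rational function `f` is a section of `O_X(D)` at the point `x` of codimension one. -/
def SecAt {X : PVar} (D : Div X) (x : Pt X.X) (f : K X) : Prop :=
  codim x = 1 → f ≠ 0 → 0 ≤ ord f x + coef D x

/-- The rational function `f` belongs to `H^0(X, O_X(D))`: `f = 0` or `div f + D ≥ 0`. -/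
def IsSec {X : PVar} (D : Div X) (f : K X) : Prop := ∀ x : Pt X.X, SecAt D x f

/-- Some nonzero `f` belongs to `H^0(X, O_X(D))`. -/
def HasSec {X : PVar} (D : Div X) : Prop := ∃ f : K X, f ≠ 0 ∧ IsSec D f

/-- `A` is ample: every point of `X` lies in an affine open set of the form `X_s`, with
`s ∈ H^0(X, mA)` and `m > 0`, where `X_s` is the set where `s` generates `O_X(mA)`. -/
def IsAmple {X : PVar} (A : Div X) : Prop :=
  ∀ x : Pt X.X, ∃ (m : ℕ) (s : K X) (U : X.X.Opens), 0 < m ∧ IsSec (m • A) s ∧
    IsAffineOpen U ∧ x ∈ U ∧ ∀ y : Pt X.X, y ∈ U ↔ GenAt (m • A) s y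

/-- `D` is nef: `mD + A` is ample for every ample `A` and every `m ≥ 0`. -/
def IsNef {X : PVar} (D : Div X) : Prop := ∀ A : Div X, IsAmple A → ∀ m : ℕ, IsAmple (m • D + A)

/-- `D` is pseudo-effective: for every ample `A` and every `m ≥ 0` some positive multiple of
`mD + A` has a nonzero section. -/
def IsPsef {X : PVar} (D : Div X) : Prop :=
  ∀ A : Div X, IsAmple A → ∀ m : ℕ, ∃ k : ℕ, 0 < k ∧ HasSec (k • (m • D + A))

/-- A smooth projective variety over `ℂ`. -/
structure Var extends PVar where
  ample : ∃ A : Div toPVar, IsAmple A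

/-! ### Dominant morphisms -/

/-- A dominant morphism over `ℂ`. -/
structure Hom (X Y : PVar) where
  /-- the morphism -/
  f : X.X ⟶ Y.X
  over : f ≫ Y.str = X.str
  dom : im f (gp X.X) = gp Y.X

theorem Hom.spe {X Y : PVar} (φ : Hom X Y) : Spe (im φ.f (gp X.X)) (gp Y.X) := by
  rw [φ.dom]
  exact specializes_refl (X := Y.X) _

/-- The pull back of rational functions under a dominant morphism. -/
noncomputable def Hom.pull {X Y : PVar} (φ : Hom X Y) (g : K Y) : K X :=
  (sp φ.spe ≫ stkMap φ.f (gp X.X)).hom g

/-- The morphism is birational. -/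
def Hom.Birational {X Y : PVar} (φ : Hom X Y) : Prop := Function.Bijective φ.pull

/-- `D` is the pull back `φ^*B` of the divisor `B`: at every point `x` of codimension one of `X`,
`D_x = ord_x (φ^* g)` for some local equation `g` of `B` at `φ(x)`. -/
def IsPullback {X Y : PVar} (φ : Hom X Y) (B : Div Y) (D : Div X) : Prop :=
  ∀ x : Pt X.X, codim x = 1 → ∃ g : K Y, GenAt (-B) g (im φ.f x) ∧ coef D x = ord (φ.pull g) x

/-! ### Differential forms -/

/-- The rational vector fields on `X`. -/
abbrev Der (X : PVar) : Type := Derivation ℂ (K X) (K X)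

/-- The value of the vector field `v` at the function `f`. -/
noncomputable def app {X : PVar} (v : Der X) (f : K X) : K X := v f

/-- The rational vector field `v` is regular at the point `x`: it preserves the local ring. -/
def RegDer {X : PVar} (v : Der X) (x : Pt X.X) : Prop := ∀ f : K X, Reg f x → Reg (app v f) x

/-- The dimension of a variety. -/
noncomputable def dim (X : PVar) : ℕ := Module.finrank (K X) (Der X)

/-- The rational sections of the tensor power `(Ω^1_X)^{⊗N}`, as multilinear functions of `N`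
rational vector fields. -/
abbrev Ten (X : PVar) (N : ℕ) : Type := MultilinearMap (K X) (fun _ : Fin N => Der X) (K X)

/-- The value of the tensor `e` at `N` vector fields. -/
noncomputable def ev {X : PVar} {N : ℕ} (e : Ten X N) (v : Fin N → Der X) : K X := e v

/-- `e` is not zero. -/
def Nonzero {X : PVar} {N : ℕ} (e : Ten X N) : Prop := ∃ v, ev e v ≠ 0

/-- `f` is a value of the tensor `e` on vector fields regular at the point `x`. -/
def IsValue {X : PVar} {N : ℕ} (e : Ten X N) (x : Pt X.X) (f : K X) : Prop :=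
  ∃ v : Fin N → Der X, (∀ i, RegDer (v i) x) ∧ ev e v = f

/-- `e` is a global section of `(Ω^1_X)^{⊗N} ⊗ O_X(D)`. -/
def IsTwTensor {X : PVar} {N : ℕ} (e : Ten X N) (D : Div X) : Prop :=
  ∀ (x : Pt X.X) (f : K X), IsValue e x f → SecAt D x f

/-- The divisor of the nonzero rational section `e` of `(Ω^1_X)^{⊗N}`: its coefficient at `x` is the
least order of the values of `e` on vector fields regular at `x`. -/
def IsDivTensor {X : PVar} {N : ℕ} (e : Ten X N) (D : Div X) : Prop :=
  ∀ x : Pt X.X, codim x = 1 → IsLeast {n : ℤ | ∃ f, IsValue e x f ∧ f ≠ 0 ∧ ord f x = n} (coef D x)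

/-- `e` is alternating. -/
def IsAlt {X : PVar} {N : ℕ} (e : Ten X N) : Prop :=
  ∀ v : Fin N → Der X, ∀ i j, v i = v j → i ≠ j → ev e v = 0

/-- `κ` is a canonical divisor of `X`: the divisor of a nonzero rational differential form of
degree `dim X`. -/
def IsCanonical {X : PVar} (κ : Div X) : Prop :=
  ∃ ω : Ten X (dim X), Nonzero ω ∧ IsAlt ω ∧ IsDivTensor ω κ

/-! ### Metrics -/

/-- The rational function `f` belongs to the maximal ideal of the local ring at `x`. -/
def Van {X : PVar} (f : K X) (x : Pt X.X) : Prop := Reg f x ∧ (f = 0 ∨ ¬ Reg f⁻¹ x)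

/-- The rational function `f` is regular at the point `x` with value `c ∈ ℂ` there. -/
def HasValue {X : PVar} (f : K X) (x : Pt X.X) (c : ℂ) : Prop := Van (f - cst X c) x

/-- The second derivative of the function `Φ` on `ℂ^N` at `z` in the direction `v`. -/
noncomputable def dd {N : ℕ} (Φ : (Fin N → ℂ) → ℝ) (z v : Fin N → ℂ) : ℝ :=
  lineDeriv ℝ (fun y => lineDeriv ℝ Φ y v) z v

/-- The complex Hessian (Levi form) of the smooth function `Φ` on `ℂ^N` at `z`, evaluated at
`(v, v)`, up to the factor `1/4`. -/
noncomputable def levi {N : ℕ} (Φ : (Fin N → ℂ) → ℝ) (z v : Fin N → ℂ) : ℝ :=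
  dd Φ z v + dd Φ z (Complex.I • v)

/-- `v ∈ ℂ^N` is tangent at `g(x)` to the image of `X` under `g = (g_1, …, g_N)`: it is the image
`(δ g_1, …, δ g_N)` of a tangent vector (point derivation of the local ring) `δ` at `x`. -/
def IsTangent {X : PVar} {N : ℕ} (g : Fin N → K X) (x : Pt X.X) (v : Fin N → ℂ) : Prop :=
  ∃ δ : K X → ℂ, (∀ c, δ (cst X c) = 0) ∧
    (∀ a b : K X, ∀ α β : ℂ, HasValue a x α → HasValue b x β →
      δ (a + b) = δ a + δ b ∧ δ (a * b) = α * δ b + β * δ a) ∧
    ∀ i, v i = δ (g i)

/-- The functions `g_1, …, g_N` generate the ring of the functions regular on `U`. -/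
def Generate {X : PVar} (U : X.X.Opens) {N : ℕ} (g : Fin N → K X) : Prop :=
  ∀ f : K X, f ∈ Algebra.adjoin ℂ (Set.range g) ↔ ∀ y : Pt X.X, y ∈ U → Reg f y

/-- The function `w` is near the closed point `x` given by a smooth function with nonnegative Levi
form: in affine coordinates `g_1, …, g_N` on a neighbourhood `U` of `x` where `f` generates `O_X(D)`,
`w f` is given by a smooth function `Φ` on an open subset of `ℂ^N` whose Levi form is nonnegative on
the tangent spaces of `X`. -/
def PshAt {X : PVar} (D : Div X) (w : K X → Pt X.X → ℝ) (x : Pt X.X) : Prop :=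
  ∃ (U : X.X.Opens) (f : K X) (N : ℕ) (g : Fin N → K X) (Φ : (Fin N → ℂ) → ℝ)
    (W : Set (Fin N → ℂ)), IsAffineOpen U ∧ x ∈ U ∧ (∀ y : Pt X.X, y ∈ U → GenAt D f y) ∧
    Generate U g ∧ IsOpen W ∧ ContDiffOn ℝ ((⊤ : ℕ∞) : WithTop ℕ∞) Φ W ∧
    (∃ z ∈ W, ∀ i, HasValue (g i) x (z i)) ∧
    ∀ y : Pt X.X, y ∈ U → Closed y → ∀ z ∈ W, (∀ i, HasValue (g i) y (z i)) →
      w f y = Φ z ∧ ∀ v, IsTangent g y v → 0 ≤ levi Φ z v

/-- The line bundle `O_X(D)` has a smooth Hermitian metric of semipositive curvature. The metric is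
given by its weights `w f x = -log |f(x)|²`, for `f` a generator of `O_X(D)` near the closed
point `x`. -/
def SemiPos {X : PVar} (D : Div X) : Prop :=
  ∃ w : K X → Pt X.X → ℝ,
    (∀ (f f' : K X) (x : Pt X.X) (c : ℂ), Closed x → GenAt D f x → GenAt D f' x →
      HasValue (f' / f) x c → w f' x = w f x - Real.log (‖c‖ ^ 2)) ∧
    ∀ x : Pt X.X, Closed x → PshAt D w x

/-! ### Cohomology of direct images, intersection numbers -/

/-- The section condition describing the sheaf `φ_* O_X(D)` on `Y`: `f` is a section of `O_X(D)` at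
all points of `X` over the point `y`. -/
def OverAt {X Y : PVar} (φ : Hom X Y) (D : Div X) (y : Sp Y.X) (f : K X) : Prop :=
  ∀ x : Pt X.X, im φ.f x = y → SecAt D x f

/-- `dim H^i(X, O_X(D))`. -/
noncomputable def hX {X : PVar} (D : Div X) (i : ℕ) : ℕ :=
  hdim (T := Sp X.X) (fun x => SecAt D x) i

/-- The Euler characteristic of `O_X(D)`. -/
noncomputable def chi {X : PVar} (D : Div X) : ℤ :=
  ∑ i ∈ Finset.range (dim X + 1), (-1) ^ i * (hX D i : ℤ)

/-- The intersection number `D_1 ⋯ D_n` of `n = dim X` divisors (Snapper's definition). -/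
noncomputable def inter {X : PVar} (D : Fin (dim X) → Div X) : ℤ :=
  ∑ S : Finset (Fin (dim X)), (-1) ^ S.card * chi (-∑ i ∈ S, D i)

end Vale.Agent.P299.S
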