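import Mathlib.Algebra.MonoidAlgebra.Basic
import Mathlib.AlgebraicGeometry.Pullbacks
import Mathlib.AlgebraicGeometry.Morphisms.Etale
import Mathlib.AlgebraicGeometry.Morphisms.Finite
import Vale.Agent.P299.S.Defs

/-!
# Torus actions and the published theorems about them
-/

open CategoryTheory TopologicalSpace Opposite AlgebraicGeometry

namespace Vale.Agent.P299.S

/-- The coordinate ring `ℂ[ℤ^r]` of the torus `(ℂ^*)^r`. -/
abbrev Laurent (r : ℕ) : Type := AddMonoidAlgebra ℂ (Fin r → ℤ)

/-- The evaluation of Laurent polynomials at the point `t` of `(ℂ^*)^r`. -/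
noncomputable def evalAt {r : ℕ} (t : Fin r → ℂˣ) : Laurent r →ₐ[ℂ] ℂ :=
  AddMonoidAlgebra.lift ℂ ℂ (Fin r → ℤ)
    { toFun := fun m => ((∏ i, t i ^ (Multiplicative.toAdd m) i : ℂˣ) : ℂ)
      map_one' := by simp
      map_mul' := fun m n => by
        rw [← Units.val_mul, ← Finset.prod_mul_distrib]
        congr 1
        exact Finset.prod_congr rfl fun i _ => zpow_add _ _ _ }

/-- The torus `(ℂ^*)^r`. -/
noncomputable def Torus (r : ℕ) : Scheme.{0} := Spec (CommRingCat.of (Laurent r))

/-- The structure morphism of the torus. -/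
noncomputable def torStr (r : ℕ) : Torus r ⟶ SpecC :=
  Spec.map (CommRingCat.ofHom (algebraMap ℂ (Laurent r)))

/-- The point `t` of the torus. -/
noncomputable def torPt {r : ℕ} (t : Fin r → ℂˣ) : SpecC ⟶ Torus r :=
  Spec.map (CommRingCat.ofHom (evalAt t).toRingHom)

theorem torPt_torStr {r : ℕ} (t : Fin r → ℂˣ) : torPt t ≫ torStr r = 𝟙 SpecC := by
  have h : CommRingCat.ofHom (algebraMap ℂ (Laurent r)) ≫ CommRingCat.ofHom (evalAt t).toRingHom =
      𝟙 (CommRingCat.of ℂ) := by
    ext c
    exact (evalAt t).commutes c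
  exact (Spec.map_comp _ _).symm.trans ((congrArg Spec.map h).trans (Spec.map_id _))

/-- The product `(ℂ^*)^r × X`. -/
noncomputable def TX (r : ℕ) (X : PVar) : Scheme.{0} := Limits.pullback (torStr r) X.str

/-- The inclusion `X → (ℂ^*)^r × X`, `x ↦ (t, x)`. -/
noncomputable def slice {r : ℕ} (t : Fin r → ℂˣ) (X : PVar) : X.X ⟶ TX r X :=
  Limits.pullback.lift (X.str ≫ torPt t) (𝟙 X.X) (by
    rw [Category.assoc, torPt_torStr, Category.comp_id, Category.id_comp])

/-- An algebraic action of the torus `(ℂ^*)^r` on `X` (for `r = 0`: of the trivial group):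
automorphisms `act t` of `X` over `ℂ`, `t ∈ (ℂ^*)^r`, which are the members of a family given by a
morphism `(ℂ^*)^r × X → X`. -/
structure Act (r : ℕ) (X : PVar) where
  /-- the action of `t ∈ (ℂ^*)^r` -/
  act : (Fin r → ℂˣ) → Hom X X
  one : (act 1).f = 𝟙 X.X
  mul : ∀ s t, (act (s * t)).f = (act s).f ≫ (act t).f
  alg : ∃ a : TX r X ⟶ X.X, ∀ t, slice t X ≫ a = (act t).f

/-- The action is effective: only `t = 1` acts as the identity. -/
def Effective {r : ℕ} {X : PVar} (τ : Act r X) : Prop := ∀ t, (τ.act t).f = 𝟙 X.X → t = 1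

/-- The rational function `f` is `T`-invariant. -/
def Inv {r : ℕ} {X : PVar} (τ : Act r X) (f : K X) : Prop := ∀ t, (τ.act t).pull f = f

/-- The divisor `D` is `T`-invariant. -/
def InvDiv {r : ℕ} {X : PVar} (τ : Act r X) (D : Div X) : Prop :=
  ∀ t x, coef D (im (τ.act t).f x) = coef D x

/-- The rational tensor `e` is `T`-invariant: `e(t v_1 t⁻¹, …, t v_N t⁻¹) = t (e(v_1, …, v_N))` for
all `t ∈ T` and all rational vector fields `v_i`. -/
def InvTen {r : ℕ} {X : PVar} (τ : Act r X) {N : ℕ} (e : Ten X N) : Prop :=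
  ∀ t, ∀ v w : Fin N → Der X, (∀ i f, app (w i) ((τ.act t).pull f) = (τ.act t).pull (app (v i) f)) →
    ev e w = (τ.act t).pull (ev e v)

/-- `κ` is a `T`-invariant canonical divisor: it is the divisor of a nonzero `T`-invariant rational
differential form of degree `dim X`. The `T`-linearised line bundle `O_X(κ)` is then the canonical
bundle with its natural linearisation. -/
def IsCanT {r : ℕ} {X : PVar} (τ : Act r X) (κ : Div X) : Prop :=
  ∃ ω : Ten X (dim X), Nonzero ω ∧ IsAlt ω ∧ InvTen τ ω ∧ IsDivTensor ω κ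

/-- The set `X` with the topology whose open sets are the `T`-invariant open sets; up to points with
the same neighbourhoods this is the space of orbits. -/
def Orb {r : ℕ} {X : PVar} (τ : Act r X) : TopCat.{0} :=
  @TopCat.of (Pt X.X) (TopologicalSpace.generateFrom
    {U | @IsOpen X.X _ U ∧ ∀ t, im (τ.act t).f ⁻¹' U = U})

/-- `dim H^i(X, O_X(D))^T` for a `T`-invariant divisor `D`. Since every point of `X` has a
`T`-invariant affine neighbourhood (Sumihiro) and taking `T`-invariants is exact, this is the
cohomology of the sheaf of `T`-invariant sections of `O_X(D)` for the topology of the `T`-invariant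
open subsets. -/
noncomputable def hT {r : ℕ} {X : PVar} (τ : Act r X) (D : Div X) (i : ℕ) : ℕ :=
  hdim (T := Orb τ) (fun x f => Inv τ f ∧ SecAt D x f) i

/-- [Demailly–Peternell–Schneider 1996; Campana–Demailly–Peternell 2012] The structure theorem. Let
`-K_X` have a smooth semipositive metric. There are a finite étale cover `Xc → X` and a locally
trivial fibre bundle `Xc → B` over a smooth projective variety `B` with trivial canonical bundle
whose fibre `Z` is rationally connected, such that `-K_Z` has a smooth semipositive metric and the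
structure group is a torus `T` acting effectively on `Z`, given by flat bundles. So `H^i(Z, O_Z) = 0`
for `i > 0` and `H^i(Z, -mK_Z)^T` is a direct summand of `H^i(Xc, -mK_Xc)`. -/
def StructureTheorem : Prop :=
  ∀ (X : Var) (κ : Div X.toPVar), IsCanonical κ → SemiPos (-κ) →
    ∃ (Xc : Var) (π : Hom Xc.toPVar X.toPVar) (κc : Div Xc.toPVar) (Z : Var) (r : ℕ)
      (τ : Act r Z.toPVar) (κZ : Div Z.toPVar),
      IsFinite π.f ∧ Etale π.f ∧ IsPullback π κ κc ∧ IsCanonical κc ∧
      Effective τ ∧ IsCanT τ κZ ∧ InvDiv τ κZ ∧ SemiPos (-κZ) ∧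
      (∀ i > 0, hT τ 0 i = 0) ∧ ∀ m i : ℕ, hT τ (m • -κZ) i ≤ hX (m • -κc) i

/-- [Teleman, The quantization conjecture revisited, Theorem 3.2 and Section 5; Mumford; Kempf;
Snapper] The index of the `T`-invariant part of the powers of the anticanonical bundle. Let a torus
`T` act effectively on `X`, with `-K_X` nef. Then for a generic `T`-linearised ample bundle `H` and
`ε > 0` small, the semistable locus of `-K_X + εH` is nonempty, equal to the stable locus, and
independent of `ε`, all the line bundles `-kK_X`, `k ≥ 0`, are adapted to its Kempf–Ness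
stratification and, for suitable `N > 0`, `-NK_X` descends to the projective geometric quotient `Q`.
So `H^i(X, -kNK_X)^T = H^i(Q, L_Q^k)` and the Euler characteristic is a polynomial in `k ≥ 0`. -/
def InvariantIndex : Prop :=
  ∀ (r : ℕ) (X : Var) (τ : Act r X.toPVar) (κ : Div X.toPVar), Effective τ → IsCanT τ κ →
    InvDiv τ κ → IsNef (-κ) → ∃ (N : ℕ) (p : Polynomial ℚ), 0 < N ∧ ∀ k : ℕ,
      ∑ i ∈ Finset.range (dim X.toPVar + 1), (-1 : ℚ) ^ i * hT τ (k • (N • -κ)) i =
        p.eval (k : ℚ)

end Vale.Agent.P299.S
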