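import Vale.Agent.P299.S.ConvThm
import Vale.Agent.P299.S.ConvSheaf
import Vale.Agent.P299.S.Torus
import Vale.Agent.P299.Q.Stage2

/-!
# Comparison of the languages `S` and `Q`: torus actions
-/

open CategoryTheory TopologicalSpace Opposite AlgebraicGeometry

namespace Vale.Agent.P299.Q

/-- The structure theorem, without the clause on the plain cohomology of `O_Z`. -/
def StructureTheoremT : Prop :=
  ∀ (X : Var) (κ : Div X.X), IsCanonicalDivisor κ → SemiPos (-κ) →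
    ∃ (Xc : Var) (π : DomHom Xc X) (κc : Div Xc.X) (Z : Var) (r : ℕ) (τ : TAct r Z)
      (κZ : Div Z.X),
      IsFinite π.f ∧ Etale π.f ∧ IsPullback π κ κc ∧ IsCanonicalDivisor κc ∧
      τ.Effective ∧ τ.IsCanonical κZ ∧ τ.InvDiv κZ ∧ SemiPos (-κZ) ∧
      (∀ i > 0, τ.h 0 i = 0) ∧
      ∀ m i : ℕ, τ.h (m • -κZ) i ≤ hh (S := (Xc.X : TopCat.{0})) id ⊤ (m • -κc) i

/-- **Q1** from the core theorem, the structure theorem and the index theorem. -/
theorem anticanonicalNonvanishing_of_core' (hcore : CoreStatement) (hFS : FactorialStalks)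
    (hSPN : SemiPosNef) (hST : StructureTheoremT)
    (hII : InvariantIndex) : AnticanonicalNonvanishing := by
  intro X κ hκ hSP
  obtain ⟨Xc, π, κc, Z, r, τ, κZ, hfin, -, hpb, hcanc, heff, hcan, hinv, hSPZ, hh0, hle⟩ :=
    hST X κ hκ hSP
  obtain ⟨N, p, hN, hp⟩ := hII r Z τ κZ heff hcan hinv (hSPN _ _ hSPZ)
  have hp0 : p.eval 0 ≠ 0 := by
    rw [index_at_zero hFS τ (-κZ) hp hh0]
    exact one_ne_zero
  have hcoh := coh_of_index (fun k i => τ.h (k • (-κZ)) i) hN hp0 fun k => by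
    rw [← hp k]
    exact Finset.sum_congr rfl fun i _ => by rw [mul_smul]
  obtain ⟨m, hm, hsec⟩ := hcore Xc κc hcanc (semiPos_pull hFS π hpb.neg hSP) fun M₀ => by
    obtain ⟨k, hk, i, hi⟩ := hcoh M₀
    exact ⟨k, hk, i, fun h0 => hi (Nat.le_zero.1 ((hle k i).trans h0.le))⟩
  obtain ⟨f, hf, hf0⟩ := H0_ne_bot_iff.1 hsec
  obtain ⟨d, hd, hnorm⟩ := exists_norm π hFS
  obtain ⟨s, hs, hs0⟩ := hnorm (m • -κ) (m • -κc) (hpb.neg.nsmul m) _ hf hf0
  refine ⟨d * m, Nat.mul_pos hd hm, H0_ne_bot_iff.2 ⟨s, ?_, hs0⟩⟩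
  rwa [mul_smul]

end Vale.Agent.P299.Q

namespace Vale.Agent.P299.S

variable {r : ℕ} {X : Q.Var}

/-- The action in the language `S`. -/
noncomputable abbrev sa (τ : Q.TAct r X) : Act r (pv X) where
  act t := sh (τ.act t)
  one := τ.act_one
  mul := τ.act_mul
  alg := by
    obtain ⟨a, ha⟩ := τ.algebraic
    exact ⟨a, fun t => ha t (slice t (pv X)) (Limits.pullback.lift_fst _ _ _)
      (Limits.pullback.lift_snd _ _ _)⟩

/-- The action in the language `Q`. -/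
noncomputable abbrev qa (τ : Act r (pv X)) : Q.TAct r X where
  act t := qh (τ.act t)
  act_one := τ.one
  act_mul := τ.mul
  algebraic := by
    obtain ⟨a, ha⟩ := τ.alg
    refine ⟨a, fun t j h1 h2 => ?_⟩
    have h3 : j = slice t (pv X) := Limits.pullback.hom_ext
      (h1.trans (Limits.pullback.lift_fst _ _ _).symm)
      (h2.trans (Limits.pullback.lift_snd _ _ _).symm)
    rw [h3]
    exact ha t

theorem sa_qa (τ : Act r (pv X)) : sa (qa τ) = τ := rfl

theorem qa_sa (τ : Q.TAct r X) : qa (sa τ) = τ := rfl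

theorem effective_iff (τ : Q.TAct r X) : τ.Effective ↔ Effective (sa τ) := Iff.rfl

theorem inv_iff (τ : Q.TAct r X) (f : X.K) : f ∈ τ.inv ↔ Inv (sa τ) f := Iff.rfl

theorem invDiv_iff (τ : Q.TAct r X) (D : Q.Div X.X) : τ.InvDiv D ↔ InvDiv (sa τ) D := Iff.rfl

theorem invTen_iff (τ : Q.TAct r X) {N : ℕ} (e : X.Ten N) : τ.InvTensor e ↔ InvTen (sa τ) e :=
  Iff.rfl

theorem isCanT_iff (τ : Q.TAct r X) (κ : Q.Div X.X) : τ.IsCanonical κ ↔ IsCanT (sa τ) κ := by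
  constructor
  · rintro ⟨ω, h1, h2, h3, h4⟩
    exact ⟨ω, (nonzero_iff ω).2 h1, h2, h3, (isDivTensor_iff ω κ).1 h4⟩
  · rintro ⟨ω, h1, h2, h3, h4⟩
    exact ⟨ω, (nonzero_iff ω).1 h1, h2, h3, (isDivTensor_iff ω κ).2 h4⟩

theorem top_eq (τ : Q.TAct r X) :
    τ.top = TopologicalSpace.generateFrom
      {U : Set X.X | IsOpen U ∧ ∀ t, (τ.act t).f ⁻¹' U = U} :=
  (@generateFrom_setOfPred_isOpen _ τ.top).symm

theorem hh_congr_top (E : Submodule ℂ X.K) (D : Q.Div X.X) (i : ℕ)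
    (t t' : TopologicalSpace X.X) (ht : @PreirreducibleSpace X.X t)
    (ht' : @PreirreducibleSpace X.X t') (h : t = t') :
    @Q.hh X (@TopCat.of X.X t) ht (fun x => x) E D i =
      @Q.hh X (@TopCat.of X.X t') ht' (fun x => x) E D i := by
  subst h
  rfl

theorem hT_eq (τ : Q.TAct r X) (D : Q.Div X.X) (i : ℕ) : hT (sa τ) D i = τ.h D i := by
  have h1 : @PreirreducibleSpace X.X τ.top := (inferInstance : PreirreducibleSpace τ.space)
  have h2 : PreirreducibleSpace (Orb (sa τ)) := by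
    have h3 := h1
    rw [top_eq τ] at h3
    exact h3
  refine (hdim_eq_hh (S := Orb (sa τ)) (fun x => x) τ.inv D
    (fun x f => Inv (sa τ) f ∧ SecAt (X := pv X) D x f)
    (fun s f => ⟨fun h => ⟨h.1, fun x hx => by
      have hx' : x = s := hx
      rw [hx']
      exact h.2⟩, fun h => ⟨h.1, h.2 s rfl⟩⟩) i).trans ?_
  exact hh_congr_top τ.inv D i _ _ h2 h1 (top_eq τ).symm

/-! ### The published theorems -/

theorem structureTheorem (h : StructureTheorem) : Q.StructureTheoremT := by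
  intro X κ hκ hSP
  obtain ⟨Xc, π, κc, Z, r, τ, κZ, h1, h2, h3, h4, h5, h6, h7, h8, h9, h10⟩ :=
    h (sv X) κ ((isCanonical_iff κ).1 hκ) ((semiPos_iff (-κ)).1 hSP)
  refine ⟨qv Xc, qh (X := qv Xc) π, κc, qv Z, r, qa (X := qv Z) τ, κZ, h1, h2, h3,
    (isCanonical_iff (X := qv Xc) κc).2 h4, h5, (isCanT_iff (X := qv Z) (qa τ) κZ).2 h6, h7,
    (semiPos_iff (X := qv Z) (-κZ)).2 h8, fun i hi => ?_, fun m i => ?_⟩
  · exact (hT_eq (X := qv Z) (qa τ) 0 i).symm.trans (h9 i hi)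
  · exact ((hT_eq (X := qv Z) (qa τ) (m • -κZ) i).symm.le.trans (h10 m i)).trans
      (hX_eq (X := qv Xc) (m • -κc) i).le

theorem invariantIndex (h : InvariantIndex) : Q.InvariantIndex := by
  intro r X τ κ h1 h2 h3 h4
  obtain ⟨N, p, hN, hp⟩ := h r (sv X) (sa τ) κ h1 ((isCanT_iff τ κ).1 h2) h3
    ((isNef_iff (-κ)).1 h4)
  refine ⟨N, p, hN, fun k => ?_⟩
  refine Eq.trans ?_ (hp k)
  refine Finset.sum_congr rfl fun i _ => ?_
  exact congrArg (fun m : ℕ => (-1 : ℚ) ^ i * (m : ℚ)) (hT_eq τ (k • (N • -κ)) i).symm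

end Vale.Agent.P299.S
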