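import Vale.Agent.P299.S.GeoT
import Vale.Agent.P299.S.ConvTorus
import Vale.Agent.P299.Q.BunE
import Vale.Agent.P299.Q.OrbH
import Vale.Agent.P299.Q.Strict

/-!
# The cohomology of fibre bundles
-/

open CategoryTheory TopologicalSpace Opposite AlgebraicGeometry

namespace Vale.Agent.P299.S

variable {X B Z : Q.Var} {q : Hom (pv X) (pv B)}

/-- The chart in the language `Q`. -/
abbrev qc (c : Chart q (pv Z)) : Q.Chart (qh q) Z where
  U := c.U
  W := c.W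
  j := c.j
  s := c.s
  inv := c.inv
  p := c.p
  prod := c.prod

theorem isClosed_image (φ : Q.DomHom X B) {x : X.X} (hx : IsClosed {x}) : IsClosed {φ.f x} :=
  Q.isClosed_map φ hx

theorem isBundle {r : ℕ} {τ : Act r (pv Z)} {𝒜 : Set (Chart q (pv Z))} (h : IsBundle q τ 𝒜) :
    Q.IsBundle (qh q) (qa τ) (qc '' 𝒜) := by
  refine ⟨fun b => ?_, ?_⟩
  · obtain ⟨c, hc, hb⟩ := h.1 b
    exact ⟨qc c, ⟨c, hc, rfl⟩, hb⟩
  · rintro _ ⟨c, hc, rfl⟩ _ ⟨c', hc', rfl⟩ w w' hw hww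
    have h1 : (qh q).f ((qc c).j w) ∈ (qc c).U := (qc c).q_j_mem w
    have h2 : (qh q).f ((qc c).j w) ∈ (qc c').U := by
      rw [hww]
      exact (qc c').q_j_mem w'
    obtain ⟨t, ht⟩ := h.2 c hc c' hc' ((qh q).f ((qc c).j w)) (isClosed_image (qh q) hw) h1 h2
    obtain ⟨w'', h3, h4⟩ := ht ((qc c).j w) ((qc c).p w) hw rfl ⟨w, rfl, rfl⟩
    refine ⟨t, ?_⟩
    have h5 : w'' = w' := (qc c').j_injective (h3.trans hww)
    rw [← h5]
    exact h4

theorem corr {𝒜 : Set (Chart q (pv Z))} {D : Q.Div Z.X} {D' : Q.Div X.X}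
    (h : Corr 𝒜 (Z := pv Z) (X := pv X) D D') : Q.Corr (qc '' 𝒜) D D' := by
  rintro _ ⟨c, hc, rfl⟩ w hw
  exact h c hc _ _ hw ⟨w, rfl, rfl⟩

/-- **The cohomology of fibre bundles.** -/
theorem bundleCoh (hKN : Q.KollarNadelVanishing) : BundleCoh := by
  intro X B Z q r τ 𝒜 D D' i h hD hDD'
  obtain ⟨hb⟩ := (isBundle (X := qv X) (B := qv B) (Z := qv Z) h).nonempty_bunData
    (corr (X := qv X) (B := qv B) (Z := qv Z) hDD')
  exact ((hT_eq (X := qv Z) (qa τ) D i).le.trans (hb.h_le hKN hD i)).trans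
    (hX_eq (X := qv X) D' i).symm.le

end Vale.Agent.P299.S
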