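import Mathlib.Algebra.Category.ModuleCat.AB
import Mathlib.Algebra.Category.ModuleCat.Adjunctions
import Mathlib.Algebra.Homology.DerivedCategory.Ext.Linear
import Mathlib.CategoryTheory.Linear.FunctorCategory
import Mathlib.CategoryTheory.Abelian.GrothendieckAxioms.Sheaf
import Mathlib.CategoryTheory.Abelian.GrothendieckCategory.HasExt
import Mathlib.Algebra.Category.ModuleCat.Limits
import Mathlib.Algebra.Category.ModuleCat.FilteredColimits
import Mathlib.LinearAlgebra.Dimension.Finrank
import Mathlib.Topology.Sheaves.Sheaf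
import Mathlib.Data.Complex.Basic

/-!
# Cohomology of sheaves of complex vector spaces
-/

open CategoryTheory TopologicalSpace Opposite TopCat

namespace Vale.Agent.P299.S

/-- The category of the sheaves of complex vector spaces on the topological space `T`. -/
abbrev Shf (T : TopCat.{0}) : Type 1 := Sheaf (Opens.grothendieckTopology T) (ModuleCat.{0} ℂ)

instance instHasSheafify (T : TopCat.{0}) :
    HasSheafify (Opens.grothendieckTopology T) (ModuleCat.{0} ℂ) := inferInstance

noncomputable instance instAbelian (T : TopCat.{0}) : Abelian (Shf T) := inferInstance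

instance instHasExt (T : TopCat.{0}) : HasExt.{0} (Shf T) := inferInstance

noncomputable instance instLinear (T : TopCat.{0}) :
    @Linear ℂ _ (Shf T) _ Abelian.toPreadditive := inferInstance

/-- The constant sheaf with value `ℂ`. -/
noncomputable def constC (T : TopCat.{0}) : Shf T :=
  Functor.obj (constantSheaf (Opens.grothendieckTopology T) (ModuleCat.{0} ℂ)) (ModuleCat.of ℂ ℂ)

/-- `dim H^i(T, F)`, where `H^i(T, F) = Ext^i(ℂ_T, F)`. -/
noncomputable def dimH {T : TopCat.{0}} (F : Shf T) (i : ℕ) : ℕ :=
  Module.finrank ℂ (Abelian.Ext.{0} (constC T) F i)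

/-- `H^i(T, F) = 0`. -/
def VanH {T : TopCat.{0}} (F : Shf T) (i : ℕ) : Prop :=
  Subsingleton (Abelian.Ext.{0} (constC T) F i)

/-- The space of the sections of the sheaf `F` over `U`. -/
def Sec {T : TopCat.{0}} (F : Shf T) (U : Opens T) : ModuleCat.{0} ℂ := F.obj.obj (op U)

/-- The restriction maps of the sheaf `F`. -/
def res {T : TopCat.{0}} (F : Shf T) {U V : Opens T} (h : V ≤ U) : Sec F U ⟶ Sec F V :=
  F.obj.map (homOfLE h).op

/-- `F` is the sheaf whose sections over a nonempty open set `U` are the `f ∈ K` which belong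
to `M x` for all `x ∈ U`, with the obvious restriction maps. -/
def IsSheafOf {T : TopCat.{0}} {K : Type} [AddCommGroup K] [Module ℂ K] (M : T → K → Prop)
    (F : Shf T) : Prop :=
  ∃ e : ∀ U : Opens T, Sec F U ⟶ ModuleCat.of ℂ K,
    (∀ U : Opens T, Nonempty U → Mono (e U) ∧
      ∀ f : K, f ∈ LinearMap.range (e U).hom ↔ ∀ x ∈ U, M x f) ∧
    ∀ (U V : Opens T) (h : V ≤ U), Nonempty V → res F h ≫ e V = e U

/-- The dimension of `H^i` of the sheaf described by `M`. -/
noncomputable def hdim {T : TopCat.{0}} {K : Type} [AddCommGroup K] [Module ℂ K]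
    (M : T → K → Prop) (i : ℕ) : ℕ :=
  sInf {n | ∃ F : Shf T, IsSheafOf M F ∧ n = dimH F i}

end Vale.Agent.P299.S
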