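import Mathlib.Algebra.MvPolynomial.Eval
import Mathlib.Algebra.MvPolynomial.Degrees
import Vale.Agent.P299.S.Defs

/-!
# The cohomology of direct images, Snapper's theorem
-/

open CategoryTheory TopologicalSpace Opposite AlgebraicGeometry

namespace Vale.Agent.P299.S

/-- `dim H^i(Y, φ_* O_X(D))`. -/
noncomputable def hY {X Y : PVar} (φ : Hom X Y) (D : Div X) (i : ℕ) : ℕ :=
  hdim (T := Sp Y.X) (OverAt φ D) i

/-- [Snapper; Kleiman, Ch. I.1] The Euler characteristic of the twists of a coherent sheaf on `Y` by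
line bundles `n₁M₁ + ... + n_kM_k` is a polynomial of degree at most `dim Y` in the integers `n_j`;
here for the sheaf `φ_* O_X(D)`. -/
def Snapper : Prop :=
  ∀ (X Y : Var) (φ : Hom X.toPVar Y.toPVar) (D : Div X.toPVar) (k : ℕ) (M : Fin k → Div Y.toPVar)
    (M' : Fin k → Div X.toPVar), (∀ j, IsPullback φ (M j) (M' j)) →
    ∃ p : MvPolynomial (Fin k) ℚ, p.totalDegree ≤ dim Y.toPVar ∧ ∀ n : Fin k → ℤ,
      ∑ i ∈ Finset.range (dim Y.toPVar + 1), (-1 : ℚ) ^ i * hY φ (D + ∑ j, n j • M' j) i =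
      MvPolynomial.eval (fun j => (n j : ℚ)) p

end Vale.Agent.P299.S
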