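import Vale.Agent.P299.S.Pub
import Vale.Agent.P299.S.Old
import Vale.Agent.P299.Q.BB0

/-!
# Comparison of the languages `S` and `Q`: varieties and divisors
-/

open CategoryTheory TopologicalSpace Opposite AlgebraicGeometry

namespace Vale.Agent.P299.S

/-- The variety of the language `S` attached to a variety of the language `Q`, without the ample
divisor. -/
noncomputable abbrev pv (X : Q.Var) : PVar where
  X := X.X
  str := X.X ↘ Q.SpecC
  int := X.int
  smooth := X.smooth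
  proper := X.proper

section Basic

variable {X : Q.Var}

theorem genAt_iff (D : Q.Div X.X) (f : X.K) (x : X.X) :
    Q.GenAt D f x ↔ GenAt (X := pv X) D f x := Iff.rfl

theorem mem_H0_iff (D : Q.Div X.X) (f : X.K) :
    f ∈ Q.H0 (Q.coef D) ↔ IsSec (X := pv X) D f := Q.mem_H0

theorem isAmple_iff (D : Q.Div X.X) : Q.IsAmple D ↔ IsAmple (X := pv X) D := by
  constructor
  · intro h x
    obtain ⟨m, hm, s, hs, U, hU, hx, hy⟩ := h x
    exact ⟨m, s, U, hm, (mem_H0_iff _ _).1 hs, hU, hx, hy⟩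
  · intro h x
    obtain ⟨m, s, U, hm, hs, hU, hx, hy⟩ := h x
    exact ⟨m, hm, s, (mem_H0_iff _ _).2 hs, U, hU, hx, hy⟩

theorem isNef_iff (D : Q.Div X.X) : Q.IsNef D ↔ IsNef (X := pv X) D :=
  ⟨fun h A hA m => (isAmple_iff _).1 (h A ((isAmple_iff A).2 hA) m),
    fun h A hA m => (isAmple_iff _).2 (h A ((isAmple_iff A).1 hA) m)⟩

theorem hasSec_iff (D : Q.Div X.X) : Q.H0 (Q.coef D) ≠ ⊥ ↔ HasSec (X := pv X) D := by
  rw [Submodule.ne_bot_iff]
  exact ⟨fun ⟨f, h, h0⟩ => ⟨f, h0, (mem_H0_iff D f).1 h⟩,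
    fun ⟨f, h0, h⟩ => ⟨f, (mem_H0_iff D f).2 h, h0⟩⟩

theorem isPsef_iff (D : Q.Div X.X) : Q.IsPsef D ↔ IsPsef (X := pv X) D :=
  ⟨fun h A hA m => (h A ((isAmple_iff A).2 hA) m).imp fun _ hk => ⟨hk.1, (hasSec_iff _).1 hk.2⟩,
    fun h A hA m => (h A ((isAmple_iff A).1 hA) m).imp fun _ hk => ⟨hk.1, (hasSec_iff _).2 hk.2⟩⟩

end Basic

/-- The variety of the language `S` attached to a variety of the language `Q`. -/
noncomputable abbrev sv (X : Q.Var) : Var where
  toPVar := pv X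
  ample := X.ample.imp fun A hA => (isAmple_iff A).1 hA

/-- The variety of the language `Q` attached to a variety of the language `S`. -/
noncomputable abbrev qv (X : Var) : Q.Var where
  X := X.X
  over := ⟨X.str⟩
  int := X.int
  smooth := X.smooth
  proper := X.proper
  ample := by
    obtain ⟨A, hA⟩ := X.ample
    let _ : X.X.Over Q.SpecC := ⟨X.str⟩
    have : Smooth (X.X ↘ Q.SpecC) := X.smooth
    refine ⟨A, fun x => ?_⟩
    obtain ⟨m, s, U, hm, hs, hU, hx, hy⟩ := hA x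
    exact ⟨m, hm, s, Q.mem_H0.2 hs, U, hU, hx, hy⟩

theorem sv_qv (X : Var) : sv (qv X) = X := rfl

theorem qv_sv (X : Q.Var) : qv (sv X) = X := rfl

theorem pv_qv (X : Var) : pv (qv X) = X.toPVar := rfl

/-! ### Dominant morphisms -/

/-- The morphism of the language `S`. -/
abbrev sh {X Y : Q.Var} (φ : Q.DomHom X Y) : Hom (pv X) (pv Y) where
  f := φ.f
  over := φ.over
  dom := φ.dominant

/-- The morphism of the language `Q`. -/
abbrev qh {X Y : Q.Var} (φ : Hom (pv X) (pv Y)) : Q.DomHom X Y where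
  f := φ.f
  over := φ.over
  dominant := φ.dom

theorem sh_qh {X Y : Q.Var} (φ : Hom (pv X) (pv Y)) : sh (qh φ) = φ := rfl

theorem qh_sh {X Y : Q.Var} (φ : Q.DomHom X Y) : qh (sh φ) = φ := rfl

end Vale.Agent.P299.S
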