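import Vale.Agent.P299.S.Hironaka
import Vale.Agent.P299.S.ConvHom

/-!
# Comparison of the languages `S` and `Q`: resolution of singularities
-/

open CategoryTheory TopologicalSpace Opposite AlgebraicGeometry

namespace Vale.Agent.P299.S

theorem hironaka (h : Hironaka) (Y : Q.Var) (L : Type) [Field L] [Algebra Y.K L]
    [FiniteDimensional Y.K L] (r : ℕ) (s : Fin r → L) (hs : ∃ i, s i ≠ 0) :
    ∃ (W : Q.Var) (φ : Q.DomHom W Y) (e : L ≃+* W.K), (∀ a, e (algebraMap Y.K L a) = φ.pull a) ∧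
      ∀ x : W.X, ∃ i, s i ≠ 0 ∧ ∀ j, ∃ b : W.X.presheaf.stalk x,
        algebraMap _ W.K b = e (s j) / e (s i) := by
  let _ : Algebra (K (sv Y).toPVar) L := (inferInstance : Algebra Y.K L)
  have : FiniteDimensional (K (sv Y).toPVar) L := (inferInstance : FiniteDimensional Y.K L)
  obtain ⟨W, φ, e, he, h1, h2⟩ := h (sv Y) L r s hs
  let e' : L ≃+* K W.toPVar :=
    { Equiv.ofBijective e he.1 with
      map_add' := he.2.1
      map_mul' := he.2.2 }
  refine ⟨qv W, qh φ, e', h1, fun x => ?_⟩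
  obtain ⟨i, hi, hj⟩ := h2 x
  refine ⟨i, hi, fun j => ?_⟩
  have h3 : e' (s j) / e' (s i) = e (s j / s i) := (map_div₀ e' (s j) (s i)).symm
  obtain ⟨b, hb⟩ := hj j
  exact ⟨b, hb.trans h3.symm⟩

end Vale.Agent.P299.S
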