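import Vale.Agent.P299.S.Resolution
import Vale.Agent.P299.S.ConvTorus
import Vale.Agent.P299.Q.ResBB

/-!
# Comparison of the languages `S` and `Q`: resolution of singularities
-/

open CategoryTheory TopologicalSpace Opposite AlgebraicGeometry

namespace Vale.Agent.P299.S

theorem isFieldHom_of_algHom {L L' : Type} [Field L] [Field L'] [Algebra ℂ L] [Algebra ℂ L']
    (e : L →ₐ[ℂ] L') : IsFieldHom (fun a => e a) :=
  ⟨e.commutes, map_add e, map_mul e⟩

/-- The homomorphism of algebras. -/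
def IsFieldHom.algHom {L L' : Type} [Field L] [Field L'] [Algebra ℂ L] [Algebra ℂ L']
    {e : L → L'} (h : IsFieldHom e) : L →ₐ[ℂ] L' where
  toFun := e
  map_one' := by
    have h1 := h.1 1
    rwa [map_one, map_one] at h1
  map_mul' := h.2.2
  map_zero' := by
    have h1 := h.1 0
    rwa [map_zero, map_zero] at h1
  map_add' := h.2.1
  commutes' := h.1

theorem resolution (h : Resolution) : Q.Resolution := by
  intro L _ _ _ m Y j r s hs
  obtain ⟨W, e, φ, he, hb, hφ, hx⟩ := h L m (fun i => sv (Y i)) (fun i a => j i a) r s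
    (fun i => isFieldHom_of_algHom (j i)) hs
  obtain ⟨W, rfl⟩ : ∃ W₀ : Q.Var, W = sv W₀ := ⟨qv W, rfl⟩
  let e' : L ≃ₐ[ℂ] W.K := AlgEquiv.ofBijective he.algHom hb
  refine ⟨W, e', fun i => qh (φ i), fun i a => hφ i a, fun x => ?_⟩
  obtain ⟨i, hi, hj⟩ := hx x
  refine ⟨i, hi, fun l => ?_⟩
  have h3 : e' (s l) / e' (s i) = e (s l / s i) := (map_div₀ e' (s l) (s i)).symm
  rw [h3]
  exact hj l

theorem equivariantResolution (h : EquivariantResolution) (r : ℕ) : Q.EquivResolutionAt r := by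
  intro Z Y τ ψ hψ
  obtain ⟨Z', τ', μ, φ, h1, h2, h3, h4⟩ := h (sv Z) (sv Y) r (sa τ) (fun a => ψ a)
    (isFieldHom_of_algHom ψ) hψ
  exact ⟨qv Z', qa (X := qv Z') τ', qh (X := qv Z') μ, qh (X := qv Z') φ, h1, h2, h3, h4⟩

end Vale.Agent.P299.S
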