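import Vale.Agent.P299.S.Conv
import Vale.Agent.P299.Q.SemiPos

/-!
# Comparison of the languages `S` and `Q`: semipositive metrics
-/

open CategoryTheory TopologicalSpace Opposite AlgebraicGeometry

namespace Vale.Agent.P299.S

/-! ### Regular functions on an open set -/

/-- A rational function which is regular at every point of `U` is a section over `U`. -/
theorem exists_section_of_regular_on {X : Scheme.{0}} [IsIntegral X] (U : X.Opens) [hU : Nonempty U]
    (u : X.functionField)
    (h : ∀ x ∈ U, ∃ a : X.presheaf.stalk x, algebraMap _ X.functionField a = u) :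
    ∃ s : Γ(X, U), X.germToFunctionField U s = u := by
  have h1 : ∀ x : U, ∃ (V : X.Opens) (_ : x.1 ∈ V) (_ : V ≤ U) (s : Γ(X, V)) (_ : Nonempty V),
      X.germToFunctionField V s = u := by
    intro x
    obtain ⟨a, ha⟩ := h x.1 x.2
    obtain ⟨V, hV, s, hs⟩ := X.presheaf.exists_germ_eq a
    have hxV : x.1 ∈ V ⊓ U := ⟨hV, x.2⟩
    have : Nonempty (V ⊓ U : X.Opens) := ⟨⟨x.1, hxV⟩⟩
    refine ⟨V ⊓ U, hxV, inf_le_right, X.presheaf.map (Opens.infLELeft V U).op s, this, ?_⟩
    rw [← ha, ← hs]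
    have h2 := Scheme.algebraMap_germ_eq_germToFunctionField X hxV
      (X.presheaf.map (Opens.infLELeft V U).op s)
    rw [← h2]
    congr 1
    exact X.presheaf.germ_res_apply (Opens.infLELeft V U) x.1 hxV s
  choose V hV hVU s hne hs using h1
  have hgen : ∀ x, genericPoint X ∈ V x := fun x =>
    ((genericPoint_spec X).mem_open_set_iff (V x).isOpen).mpr (by simpa using hne x)
  have hcomp : TopCat.Presheaf.IsCompatible X.sheaf.1 V s := by
    intro x y
    have hη : genericPoint X ∈ V x ⊓ V y := ⟨hgen x, hgen y⟩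
    have : Nonempty (V x ⊓ V y : X.Opens) := ⟨⟨_, hη⟩⟩
    apply X.germToFunctionField_injective (V x ⊓ V y)
    have e1 : X.germToFunctionField (V x ⊓ V y) (X.presheaf.map (Opens.infLELeft _ _).op (s x)) =
        X.germToFunctionField (V x) (s x) :=
      X.presheaf.germ_res_apply (Opens.infLELeft _ _) (genericPoint X) hη (s x)
    have e2 : X.germToFunctionField (V x ⊓ V y) (X.presheaf.map (Opens.infLERight _ _).op (s y)) =
        X.germToFunctionField (V y) (s y) :=
      X.presheaf.germ_res_apply (Opens.infLERight _ _) (genericPoint X) hη (s y)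
    exact e1.trans ((hs x).trans ((hs y).symm.trans e2.symm))
  obtain ⟨t, ht, -⟩ := X.sheaf.existsUnique_gluing' V U (fun x => homOfLE (hVU x))
    (fun x hx => Opens.mem_iSup.2 ⟨⟨x, hx⟩, hV ⟨x, hx⟩⟩) s hcomp
  refine ⟨t, ?_⟩
  obtain ⟨x⟩ := hU
  rw [← hs x, ← ht x]
  exact (X.presheaf.germ_res_apply (homOfLE (hVU x)) (genericPoint X) (hgen x) t).symm

/-- The sections over an open set are regular functions. -/
theorem exists_stalk_of_section {X : Scheme.{0}} [IsIntegral X] {U : X.Opens} [Nonempty U]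
    (s : Γ(X, U)) {x : X} (hx : x ∈ U) :
    ∃ a : X.presheaf.stalk x, algebraMap _ X.functionField a = X.germToFunctionField U s :=
  ⟨X.presheaf.germ U x hx s, Scheme.algebraMap_germ_eq_germToFunctionField X hx s⟩

section

variable {X : Q.Var}

theorem reg_iff (f : X.K) (x : X.X) :
    Reg (X := pv X) f x ↔ ∃ a : X.X.presheaf.stalk x, algebraMap _ X.K a = f := Iff.rfl

theorem cst_eq (c : ℂ) : cst (pv X) c = algebraMap ℂ X.K c := rfl

theorem van_iff (f : X.K) (x : X.X) : Van (X := pv X) f x ↔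
    ∃ a : X.X.presheaf.stalk x, a ∈ IsLocalRing.maximalIdeal (X.X.presheaf.stalk x) ∧
      algebraMap _ X.K a = f := by
  have hinj : Function.Injective (algebraMap (X.X.presheaf.stalk x) X.K) :=
    IsFractionRing.injective _ _
  constructor
  · rintro ⟨hreg, h⟩
    obtain ⟨a, ha⟩ := (reg_iff f x).1 hreg
    refine ⟨a, ?_, ha⟩
    rw [IsLocalRing.mem_maximalIdeal, mem_nonunits_iff]
    intro hu
    rcases h with rfl | h
    · have h0 : a = 0 := hinj (by rw [map_zero]; exact ha)
      exact hu.ne_zero h0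
    · apply h
      obtain ⟨b, hb⟩ := hu.exists_right_inv
      refine (reg_iff _ _).2 ⟨b, ?_⟩
      have h1 : algebraMap (X.X.presheaf.stalk x) X.K a * algebraMap _ X.K b = 1 := by
        rw [← map_mul, hb, map_one]
      rw [ha] at h1
      exact eq_inv_of_mul_eq_one_right h1
  · rintro ⟨a, ham, ha⟩
    refine ⟨⟨a, ha⟩, ?_⟩
    by_cases hf : f = 0
    · exact Or.inl hf
    · right
      intro hreg
      obtain ⟨b, hb⟩ := (reg_iff _ _).1 hreg
      rw [IsLocalRing.mem_maximalIdeal, mem_nonunits_iff] at ham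
      apply ham
      have h1 : algebraMap (X.X.presheaf.stalk x) X.K (a * b) = 1 := by
        rw [map_mul, ha, hb]
        exact mul_inv_cancel₀ hf
      exact IsUnit.of_mul_eq_one b (hinj (by rw [h1, map_one]))

theorem hasValue_iff (f : X.K) (x : X.X) (c : ℂ) :
    Q.HasValue f x c ↔ HasValue (X := pv X) f x c :=
  (van_iff _ _).symm

theorem isTangent_iff {N : ℕ} (g : Fin N → X.K) (x : X.X) (v : Fin N → ℂ) :
    Q.IsTangent g x v ↔ IsTangent (X := pv X) g x v := by
  refine exists_congr fun δ => and_congr Iff.rfl (and_congr ?_ Iff.rfl)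
  refine forall₂_congr fun a b => forall₂_congr fun α β => ?_
  exact imp_congr (hasValue_iff a x α) (imp_congr (hasValue_iff b x β) Iff.rfl)

/-- The second derivative in a direction. -/
theorem dd_eq {N : ℕ} {Φ : (Fin N → ℂ) → ℝ} {W : Set (Fin N → ℂ)} (hW : IsOpen W)
    (hΦ : ContDiffOn ℝ ((⊤ : ℕ∞) : WithTop ℕ∞) Φ W) {z : Fin N → ℂ} (hz : z ∈ W)
    (v : Fin N → ℂ) : dd Φ z v = iteratedFDeriv ℝ 2 Φ z ![v, v] := by
  have hd : ∀ y ∈ W, DifferentiableAt ℝ Φ y := fun y hy =>
    (hΦ.contDiffAt (hW.mem_nhds hy)).differentiableAt (by simp)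
  have h1 : (fun y => lineDeriv ℝ Φ y v) =ᶠ[nhds z] fun y => fderiv ℝ Φ y v := by
    filter_upwards [hW.mem_nhds hz] with y hy
    exact (hd y hy).lineDeriv_eq_fderiv
  have h2 : DifferentiableAt ℝ (fderiv ℝ Φ) z := by
    have h3 : ContDiffAt ℝ 2 Φ z := (hΦ.contDiffAt (hW.mem_nhds hz)).of_le Q.two_le_infty
    exact (h3.fderiv_right (m := 1) (by norm_num)).differentiableAt (by norm_num)
  unfold dd
  rw [h1.lineDeriv_eq, DifferentiableAt.lineDeriv_eq_fderiv (h2.clm_apply
    (differentiableAt_const v)), iteratedFDeriv_two_apply]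
  rw [fderiv_clm_apply h2 (differentiableAt_const v)]
  simp

theorem levi_eq {N : ℕ} {Φ : (Fin N → ℂ) → ℝ} {W : Set (Fin N → ℂ)} (hW : IsOpen W)
    (hΦ : ContDiffOn ℝ ((⊤ : ℕ∞) : WithTop ℕ∞) Φ W) {z : Fin N → ℂ} (hz : z ∈ W)
    (v : Fin N → ℂ) : levi Φ z v = Q.levi Φ z v := by
  unfold levi Q.levi
  rw [dd_eq hW hΦ hz, dd_eq hW hΦ hz]

theorem generate_iff {U : X.X.Opens} [Nonempty U] {N : ℕ} (g : Fin N → Γ(X.X, U)) :
    Subring.closure (Set.range g ∪ Set.range
        ((X.X.presheaf.map (homOfLE (le_top : U ≤ ⊤)).op).hom.comp (Q.constants X.X))) = ⊤ ↔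
      Generate (X := pv X) U fun i => X.X.germToFunctionField U (g i) := by
  have hinj : Function.Injective (X.X.germToFunctionField U) := X.X.germToFunctionField_injective U
  set C := (X.X.presheaf.map (homOfLE (le_top : U ≤ ⊤)).op).hom.comp (Q.constants X.X) with hC
  have hCg : ∀ c, X.X.germToFunctionField U (C c) = algebraMap ℂ X.K c := fun c =>
    Q.germ_cst U c
  -- the image of the subring generated by `g` and the constants is the subalgebra
  have hmap : ∀ a : Γ(X.X, U), a ∈ Subring.closure (Set.range g ∪ Set.range C) →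
      X.X.germToFunctionField U a ∈
        Algebra.adjoin ℂ (Set.range fun i => X.X.germToFunctionField U (g i)) := by
    intro a ha
    induction ha using Subring.closure_induction with
    | mem a ha =>
      rcases ha with ⟨i, rfl⟩ | ⟨c, rfl⟩
      · exact Algebra.subset_adjoin ⟨i, rfl⟩
      · rw [hCg]
        exact Subalgebra.algebraMap_mem _ c
    | zero => rw [map_zero]; exact zero_mem _
    | one => rw [map_one]; exact one_mem _
    | add a b _ _ ha hb => rw [map_add]; exact add_mem ha hb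
    | neg a _ ha => rw [map_neg]; exact neg_mem ha
    | mul a b _ _ ha hb => rw [map_mul]; exact mul_mem ha hb
  have hmap' : ∀ f : X.K, f ∈ Algebra.adjoin ℂ
      (Set.range fun i => X.X.germToFunctionField U (g i)) →
      ∃ a ∈ Subring.closure (Set.range g ∪ Set.range C), X.X.germToFunctionField U a = f := by
    intro f hf
    induction hf using Algebra.adjoin_induction with
    | mem f hf =>
      obtain ⟨i, rfl⟩ := hf
      exact ⟨g i, Subring.subset_closure (Or.inl ⟨i, rfl⟩), rfl⟩
    | algebraMap c => exact ⟨C c, Subring.subset_closure (Or.inr ⟨c, rfl⟩), hCg c⟩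
    | add f h _ _ hf hh =>
      obtain ⟨a, ha, rfl⟩ := hf
      obtain ⟨b, hb, rfl⟩ := hh
      exact ⟨a + b, add_mem ha hb, map_add _ _ _⟩
    | mul f h _ _ hf hh =>
      obtain ⟨a, ha, rfl⟩ := hf
      obtain ⟨b, hb, rfl⟩ := hh
      exact ⟨a * b, mul_mem ha hb, map_mul _ _ _⟩
  constructor
  · intro h f
    constructor
    · intro hf y hy
      obtain ⟨a, -, rfl⟩ := hmap' f hf
      exact exists_stalk_of_section a hy
    · intro hf
      obtain ⟨a, rfl⟩ := exists_section_of_regular_on U f fun y hy => hf y hy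
      exact hmap a (h ▸ Subring.mem_top a)
  · intro h
    rw [eq_top_iff]
    intro a _
    obtain ⟨b, hb, hab⟩ := hmap' _ ((h _).2 fun y hy => exists_stalk_of_section a hy)
    rw [← hinj hab]
    exact hb

end

/-- The two definitions of a semipositive metric agree. -/
theorem semiPos_iff {X : Q.Var} (D : Q.Div X.X) : Q.SemiPos D ↔ SemiPos (X := pv X) D := by
  refine exists_congr fun w => and_congr ?_ (forall₂_congr fun x hx => ?_)
  · refine forall₂_congr fun f f' => forall₂_congr fun x c => imp_congr Iff.rfl <|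
      imp_congr Iff.rfl <| imp_congr Iff.rfl <| imp_congr (hasValue_iff _ _ _) Iff.rfl
  constructor
  · rintro ⟨U, f, N, g, hne, Φ, W, hU, hxU, hf, hgen, hW, hΦ, ⟨z, hz, hzv⟩, hloc⟩
    refine ⟨U, f, N, fun i => X.X.germToFunctionField U (g i), Φ, W, hU, hxU, hf,
      (generate_iff g).1 hgen, hW, hΦ, ⟨z, hz, fun i => (hasValue_iff _ _ _).1 (hzv i)⟩,
      fun y hy hyc u hu hval => ?_⟩
    obtain ⟨h1, h2⟩ := hloc y hy hyc u hu fun i => (hasValue_iff _ _ _).2 (hval i)
    refine ⟨h1, fun v hv => ?_⟩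
    rw [levi_eq hW hΦ hu]
    exact h2 v ((isTangent_iff _ _ _).2 hv)
  · rintro ⟨U, f, N, g, Φ, W, hU, hxU, hf, hgen, hW, hΦ, ⟨z, hz, hzv⟩, hloc⟩
    have hne : Nonempty U := ⟨⟨x, hxU⟩⟩
    have hg : ∀ i, ∃ s : Γ(X.X, U), X.X.germToFunctionField U s = g i := fun i =>
      exists_section_of_regular_on U (g i) fun y hy =>
        (hgen (g i)).1 (Algebra.subset_adjoin ⟨i, rfl⟩) y hy
    choose s hs using hg
    have hs' : g = fun i => X.X.germToFunctionField U (s i) := funext fun i => (hs i).symm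
    subst hs'
    refine ⟨U, f, N, s, hne, Φ, W, hU, hxU, hf, (generate_iff s).2 hgen, hW, hΦ,
      ⟨z, hz, fun i => (hasValue_iff _ _ _).2 (hzv i)⟩, fun y hy hyc u hu hval => ?_⟩
    obtain ⟨h1, h2⟩ := hloc y hy hyc u hu fun i => (hasValue_iff _ _ _).1 (hval i)
    refine ⟨h1, fun v hv => ?_⟩
    have h3 := h2 v ((isTangent_iff _ _ _).1 hv)
    rw [levi_eq hW hΦ hu] at h3
    exact h3

end Vale.Agent.P299.S
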