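import Vale.Agent.P299.S.ConvHom
import Vale.Agent.P299.S.ConvSemiPos

/-!
# The published theorems in the languages `S` and `Q`
-/

open CategoryTheory TopologicalSpace Opposite AlgebraicGeometry

namespace Vale.Agent.P299.S

theorem genericNefness
    (hinter : ∀ (X : Q.Var) (D : Fin X.dim → Q.Div X.X), inter (X := pv X) D = Q.inter D)
    (h : GenericNefness) : Q.GenericNefness0 := by
  intro X κ hκ hnef N e D H he htw hH i
  rw [← hinter]
  exact h (sv X) κ D H N e i ((isCanonical_iff κ).1 hκ) ((isNef_iff _).1 hnef)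
    ((nonzero_iff e).2 he) ((isTwTensor_iff e _).1 htw) ((isAmple_iff H).1 hH)

theorem hardLefschetz
    (hX_eq : ∀ (X : Q.Var) (D : Q.Div X.X) (i : ℕ), hX (X := pv X) D i = Q.hX D i)
    (h : HardLefschetz) : Q.HardLefschetz := by
  intro X κ S hκ hS i hi
  rw [← hX_eq] at hi
  obtain ⟨p, hp, e, he, h1, h2⟩ := h (sv X) κ S i ((isCanonical_iff κ).1 hκ) ((semiPos_iff S).1 hS) hi
  exact ⟨p, hp, e, (nonzero_iff e).1 he, h1, (isTwTensor_iff e S).2 h2⟩

theorem kollarNadelVanishing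
    (hvan : ∀ (X Y : Q.Var) (φ : Q.DomHom X Y) (D : Q.Div X.X) (i : ℕ),
      (∀ F : Shf (Sp (pv Y).X), IsSheafOf (OverAt (sh φ) D) F → VanH F i) →
      Subsingleton (Q.Coh (Q.secSheaf (S := (Y.X : TopCat.{0})) φ.f ⊤ D) i))
    (h : KollarNadelVanishing) : Q.KollarNadelVanishing := by
  intro X Y φ κ S M A M' A' hκ hS hM hA hM' hA' ⟨c, hc, hpsef⟩ i hi
  refine hvan X Y φ _ i fun F hF => ?_
  exact h (sv X) (sv Y) (sh φ) κ S M' A' M A c i F ((isCanonical_iff κ).1 hκ) ((semiPos_iff S).1 hS)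
    ((isNef_iff M).1 hM) ((isAmple_iff A).1 hA) hM' hA' hc ((isPsef_iff _).1 hpsef) hi hF

theorem snapper
    (hY_eq : ∀ (X Y : Q.Var) (φ : Q.DomHom X Y) (D : Q.Div X.X) (i : ℕ),
      hY (sh φ) D i = Q.hY φ D i)
    (h : Snapper) : Q.Snapper := by
  intro X Y φ D k M M' hM
  obtain ⟨p, hp, hn⟩ := h (sv X) (sv Y) (sh φ) D k M M' hM
  refine ⟨p, hp, fun n => ?_⟩
  refine Eq.trans ?_ (hn n)
  refine Finset.sum_congr rfl fun i _ => ?_
  exact congrArg (fun m : ℕ => (-1 : ℚ) ^ i * (m : ℚ))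
    (hY_eq X Y φ (D + ∑ j, n j • M' j) i).symm

end Vale.Agent.P299.S
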