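import Vale.Agent.P299.S.ConvThm
import Vale.Agent.P299.S.ConvSheaf
import Vale.Agent.P299.S.ConvTorus
import Vale.Agent.P299.Q.Final1

/-!
# The results in the language `S`
-/

open CategoryTheory TopologicalSpace Opposite AlgebraicGeometry

namespace Vale.Agent.P299.S

theorem kollarNadelVanishing' (h : KollarNadelVanishing) : Q.KollarNadelVanishing :=
  kollarNadelVanishing (fun _ _ φ D i => (vanH_iff φ D i).2) h

theorem hardLefschetz' (h : HardLefschetz) : Q.HardLefschetz :=
  hardLefschetz (fun _ D i => hX_eq D i) h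

theorem genericNefness' (h : GenericNefness) : Q.GenericNefness0 :=
  genericNefness (fun _ D => inter_eq rfl D) h

/-- Anticanonical nonvanishing for varieties with `χ(X, O_X) ≠ 0`. -/
theorem eulerNonzero (h1 : KollarNadelVanishing) (h2 : HardLefschetz) (h3 : GenericNefness)
    (h4 : NakayamaCriterion) (h5 : Flattening) (X : Var) (κ : Div X.toPVar) (hκ : IsCanonical κ)
    (hS : SemiPos (-κ)) (hχ : chi (0 : Div X.toPVar) ≠ 0) : ∃ m : ℕ, 0 < m ∧ HasSec (m • -κ) := by
  obtain ⟨m, hm, hs⟩ := Q.nonvanishing_of_chi_ne_zero' (kollarNadelVanishing' h1)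
    (hardLefschetz' h2) (genericNefness' h3) (nakayamaCriterion h4) (flattening h5) (qv X) κ
    ((isCanonical_iff (X := qv X) κ).2 hκ) ((semiPos_iff (X := qv X) (-κ)).2 hS)
    (by rw [← chi_eq (X := qv X) rfl]; exact hχ)
  exact ⟨m, hm, (hasSec_iff (X := qv X) _).1 hs⟩

/-- Anticanonical nonvanishing. -/
theorem fullQ1 (h1 : KollarNadelVanishing) (h2 : HardLefschetz) (h3 : GenericNefness)
    (h4 : NakayamaCriterion) (h5 : Flattening) (h6 : StructureTheorem) (h7 : InvariantIndex)
    (X : Var) (κ : Div X.toPVar) (hκ : IsCanonical κ) (hS : SemiPos (-κ)) :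
    ∃ m : ℕ, 0 < m ∧ HasSec (m • -κ) := by
  obtain ⟨m, hm, hs⟩ := Q.anticanonicalNonvanishing_of_core'
    (Q.coreStatement' (kollarNadelVanishing' h1) (hardLefschetz' h2) (genericNefness' h3)
      (nakayamaCriterion h4) (flattening h5)) Q.factorialStalks
    (Q.semiPosNef' (hardLefschetz' h2) (kollarNadelVanishing' h1)) (structureTheorem h6)
    (invariantIndex h7) (qv X) κ ((isCanonical_iff (X := qv X) κ).2 hκ)
    ((semiPos_iff (X := qv X) (-κ)).2 hS)
  exact ⟨m, hm, (hasSec_iff (X := qv X) _).1 hs⟩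

end Vale.Agent.P299.S
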