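import Vale.Agent.P299.S.FinalNef
import Vale.Agent.P299.S.ConvHironaka
import Vale.Agent.P299.Q.NefCrit

/-!
# The results in the language `S`, from resolution of singularities

The criterion for nefness of Nakayama is proved here (`Q.nefCriterion`), from vanishing and
resolution of singularities.
-/

open CategoryTheory TopologicalSpace Opposite AlgebraicGeometry

namespace Vale.Agent.P299.S

theorem nefCriterion' (h0 : Hironaka) (h1 : KollarNadelVanishing) : Q.NefCriterion :=
  Q.nefCriterion (fun Y L _ _ _ r s hs => hironaka h0 Y L r s hs) (kollarNadelVanishing' h1)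

/-- Anticanonical nonvanishing for varieties with `χ(X, O_X) ≠ 0`. -/
theorem eulerNonzero3 (h0 : Hironaka) (h1 : KollarNadelVanishing) (h2 : HardLefschetz)
    (h3 : GenericNefness) (h5 : Flattening) (X : Var) (κ : Div X.toPVar) (hκ : IsCanonical κ)
    (hS : SemiPos (-κ)) (hχ : chi (0 : Div X.toPVar) ≠ 0) : ∃ m : ℕ, 0 < m ∧ HasSec (m • -κ) :=
  eulerNonzero_nef h1 h2 h3 (nefCriterion' h0 h1) h5 X κ hκ hS hχ

/-- Anticanonical nonvanishing. -/
theorem fullQ3 (h0 : Hironaka) (h1 : KollarNadelVanishing) (h2 : HardLefschetz)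
    (h3 : GenericNefness) (h5 : Flattening) (h6 : StructureTheorem) (h7 : InvariantIndex)
    (X : Var) (κ : Div X.toPVar) (hκ : IsCanonical κ) (hS : SemiPos (-κ)) :
    ∃ m : ℕ, 0 < m ∧ HasSec (m • -κ) :=
  fullQ1_nef h1 h2 h3 (nefCriterion' h0 h1) h5 h6 h7 X κ hκ hS

end Vale.Agent.P299.S
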