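import Vale.Agent.P299.S.FinalT
import Vale.Agent.P299.S.ConvResolution
import Vale.Agent.P299.Q.FlFlat

/-!
# Anticanonical nonvanishing for varieties with nonzero Euler characteristic

The flattening theorem is proved here (`Q.flatModels_of_resolution`), from resolution of
singularities.
-/

open CategoryTheory TopologicalSpace Opposite AlgebraicGeometry

namespace Vale.Agent.P299.S

theorem nefCriterion5 (h0 : Resolution) (h1 : KollarNadelVanishing) : Q.NefCriterion :=
  Q.nefCriterion (Q.hironaka_of_resolution (resolution h0)) (kollarNadelVanishing' h1)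

/-- Anticanonical nonvanishing for varieties with `χ(X, O_X) ≠ 0`. -/
theorem eulerNonzero5 (h0 : Resolution) (h1 : KollarNadelVanishing) (h2 : HardLefschetz)
    (h3 : BochnerVanishing) (X : Var) (κ : Div X.toPVar) (hκ : IsCanonical κ)
    (hS : SemiPos (-κ)) (hχ : chi (0 : Div X.toPVar) ≠ 0) : ∃ m : ℕ, 0 < m ∧ HasSec (m • -κ) :=
  eulerNonzeroT h1 h2 h3 (nefCriterion5 h0 h1)
    (Q.flatModels_of_resolution Q.factorialStalks (resolution h0)) X κ hκ hS hχ

end Vale.Agent.P299.S
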