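import Vale.Agent.P299.S.Final5
import Vale.Agent.P299.Q.TorAsm
import Vale.Agent.P299.Q.TopMain

/-!
# Anticanonical nonvanishing

Given `BundleCoh` and `Q.InvariantPart` (cohomology of torus bundles).
-/

open CategoryTheory TopologicalSpace Opposite AlgebraicGeometry

namespace Vale.Agent.P299.S

/-- Anticanonical nonvanishing. -/
theorem fullQ1_of_bundleCoh (h0 : Resolution) (h0' : EquivariantResolution)
    (h1 : KollarNadelVanishing) (h2 : HardLefschetz) (h3 : BochnerVanishing)
    (h4 : StructureTheoremForms) (h5 : BundleCoh) (h6 : Q.InvariantPart) (X : Var)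
    (κ : Div X.toPVar) (hκ : IsCanonical κ) (hS : SemiPos (-κ)) :
    ∃ m : ℕ, 0 < m ∧ HasSec (m • -κ) :=
  fullQ1T h1 h2 h3 (nefCriterion5 h0 h1)
    (Q.flatModels_of_resolution Q.factorialStalks (resolution h0)) h4 h5
    (Q.invariantCoh (kollarNadelVanishing' h1)
      (Q.semiPosNef' (hardLefschetz' h2) (kollarNadelVanishing' h1)) h6
      (fun r => Q.flatModelsAt_of_resolution Q.factorialStalks (resolution h0)
        (equivariantResolution h0' r))
      fun _ _ hκ' hNF => Q.chi_canonical_ne_zero_of_resolution (kollarNadelVanishing' h1)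
        (hardLefschetz' h2) (resolution h0) hκ' hNF)
    X κ hκ hS

end Vale.Agent.P299.S
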