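import Vale.Agent.P299.S.Final6
import Vale.Agent.P299.S.BunGlue
import Vale.Agent.P299.Q.OrbG

/-!
# Anticanonical nonvanishing
-/

open CategoryTheory TopologicalSpace Opposite AlgebraicGeometry

namespace Vale.Agent.P299.S

/-- Anticanonical nonvanishing. -/
theorem fullQ7 (h0 : Resolution) (h0' : EquivariantResolution) (h1 : KollarNadelVanishing)
    (h2 : HardLefschetz) (h3 : BochnerVanishing) (h4 : StructureTheoremForms) (X : Var)
    (κ : Div X.toPVar) (hκ : IsCanonical κ) (hS : SemiPos (-κ)) :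
    ∃ m : ℕ, 0 < m ∧ HasSec (m • -κ) :=
  fullQ1_of_bundleCoh h0 h0' h1 h2 h3 h4 (bundleCoh (kollarNadelVanishing' h1)) Q.invariantPart
    X κ hκ hS

end Vale.Agent.P299.S
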