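import Vale.Agent.P299.S.Final
import Vale.Agent.P299.Q.Final2

/-!
# The results in the language `S`, from a criterion for nefness
-/

open CategoryTheory TopologicalSpace Opposite AlgebraicGeometry

namespace Vale.Agent.P299.S

/-- Anticanonical nonvanishing for varieties with `χ(X, O_X) ≠ 0`. -/
theorem eulerNonzero_nef (h1 : KollarNadelVanishing) (h2 : HardLefschetz) (h3 : GenericNefness)
    (h4 : Q.NefCriterion) (h5 : Flattening) (X : Var) (κ : Div X.toPVar) (hκ : IsCanonical κ)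
    (hS : SemiPos (-κ)) (hχ : chi (0 : Div X.toPVar) ≠ 0) : ∃ m : ℕ, 0 < m ∧ HasSec (m • -κ) := by
  obtain ⟨m, hm, hs⟩ := Q.nonvanishing_of_chi_ne_zero2 (kollarNadelVanishing' h1)
    (hardLefschetz' h2) (genericNefness' h3) h4 (flattening h5) (qv X) κ
    ((isCanonical_iff (X := qv X) κ).2 hκ) ((semiPos_iff (X := qv X) (-κ)).2 hS)
    (by rw [← chi_eq (X := qv X) rfl]; exact hχ)
  exact ⟨m, hm, (hasSec_iff (X := qv X) _).1 hs⟩

/-- Anticanonical nonvanishing. -/
theorem fullQ1_nef (h1 : KollarNadelVanishing) (h2 : HardLefschetz) (h3 : GenericNefness)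
    (h4 : Q.NefCriterion) (h5 : Flattening) (h6 : StructureTheorem) (h7 : InvariantIndex)
    (X : Var) (κ : Div X.toPVar) (hκ : IsCanonical κ) (hS : SemiPos (-κ)) :
    ∃ m : ℕ, 0 < m ∧ HasSec (m • -κ) := by
  obtain ⟨m, hm, hs⟩ := Q.anticanonicalNonvanishing_of_core'
    (Q.coreStatement2 (kollarNadelVanishing' h1) (hardLefschetz' h2) (genericNefness' h3)
      h4 (flattening h5)) Q.factorialStalks
    (Q.semiPosNef' (hardLefschetz' h2) (kollarNadelVanishing' h1)) (structureTheorem h6)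
    (invariantIndex h7) (qv X) κ ((isCanonical_iff (X := qv X) κ).2 hκ)
    ((semiPos_iff (X := qv X) (-κ)).2 hS)
  exact ⟨m, hm, (hasSec_iff (X := qv X) _).1 hs⟩

end Vale.Agent.P299.S
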