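import Vale.Agent.P299.S.Geo

/-!
# The structure theorem
-/

open CategoryTheory TopologicalSpace Opposite AlgebraicGeometry

namespace Vale.Agent.P299.S

/-- [Demailly–Peternell–Schneider 1996; Campana–Demailly–Peternell, Rationally connected manifolds
and semipositivity of the Ricci curvature, Theorem 1.4] The structure theorem. Let `-K_X` have a
smooth semipositive metric. There are a finite étale cover `π : Xc → X` and a locally trivial fibre
bundle `q : Xc → B` over a smooth projective variety `B` with trivial canonical bundle, whose fibre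
`Z` is rationally connected with `-K_Z` semipositive and whose structure group is a torus `T` acting
on `Z`. (The universal cover of `X` is the product of `ℂ^q`, of Calabi–Yau and hyperkähler manifolds
and of `Z`, with `π_1` acting by isometries. After a finite étale cover `π_1 = ℤ^{2q}` acts on the
first two factors with quotient `B` and on `Z` through a compact torus, namely the identity component
of the closure of its image in the isometry group of `Z`; `T` is its complexification. The
`T`-bundle over `B` is algebraic by GAGA, and locally trivial in the Zariski topology.) As `K_B = 0`,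
the canonical divisor of `Xc` corresponds to that of `Z`. Being rationally connected, `Z` has no
nonzero holomorphic differential forms of positive degree. -/
def StructureTheoremForms : Prop :=
  ∀ (X : Var) (κ : Div X.toPVar), IsCanonical κ → SemiPos (-κ) →
    ∃ (Xc B Z : Var) (π : Hom Xc.toPVar X.toPVar) (q : Hom Xc.toPVar B.toPVar) (r : ℕ)
      (τ : Act r Z.toPVar) (𝒜 : Set (Chart q Z.toPVar)) (κ₁ κc : Div Xc.toPVar)
      (κZ : Div Z.toPVar),
      IsFinite π.f ∧ Etale π.f ∧ IsPullback π κ κ₁ ∧ IsCanonical κ₁ ∧
      IsBundle q τ 𝒜 ∧ IsCanonical (0 : Div B.toPVar) ∧ IsCanT τ κZ ∧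
      InvDiv τ κZ ∧ SemiPos (-κZ) ∧
      (∀ (p : ℕ) (e : Ten Z.toPVar p), 0 < p → IsAlt e → IsTwTensor e 0 → ¬ Nonzero e) ∧
      IsCanonical κc ∧ Corr 𝒜 κZ κc

/-- [Leray; Mumford, Geometric invariant theory, §1] For a fibre bundle with structure group `T` and a
`T`-invariant divisor `D` on the fibre, `H^i(Z, O_Z(D))^T` is a direct summand
of `H^i(X, O_X(D'))`, for the corresponding divisor `D'` on the bundle `X → B`. -/
def BundleCoh : Prop :=
  ∀ (X B Z : Var) (q : Hom X.toPVar B.toPVar) (r : ℕ) (τ : Act r Z.toPVar)
    (𝒜 : Set (Chart q Z.toPVar)) (D : Div Z.toPVar) (D' : Div X.toPVar) (i : ℕ),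
    IsBundle q τ 𝒜 → InvDiv τ D → Corr 𝒜 D D' → hT τ D i ≤ hX D' i

end Vale.Agent.P299.S
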