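import Vale.Agent.P299.S.GeoGlue
import Vale.Agent.P299.S.GeoT
import Vale.Agent.P299.Q.TorFinal

/-!
# The structure theorem in the form used in the proof, from the geometric one
-/

open CategoryTheory TopologicalSpace Opposite AlgebraicGeometry

namespace Vale.Agent.P299.S

theorem structureTheoremF (h : StructureTheoremForms) (hB : BundleCoh) :
    Q.StructureTheoremF := by
  intro X κ hκ hSP
  obtain ⟨Xc, B, Z, π, q, r, τ, 𝒜, κ₁, κc, κZ, h1, h2, h3, h4, h5, -, h8, h9, h10, h11, h12,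
    h13⟩ := h (sv X) κ ((isCanonical_iff κ).1 hκ) ((semiPos_iff (-κ)).1 hSP)
  refine ⟨qv Xc, qh (X := qv Xc) π, κ₁, qv Z, r, qa (X := qv Z) τ, κZ, h1, h2, h3,
    (isCanonical_iff (X := qv Xc) κ₁).2 h4, (isCanT_iff (X := qv Z) (qa τ) κZ).2 h8, h9,
    (semiPos_iff (X := qv Z) (-κZ)).2 h10, fun p e hp ha he => ?_, fun m i => ?_⟩
  · by_contra h0
    exact h11 p e hp ha ((isTwTensor_iff (X := qv Z) e 0).1 he)
      ((nonzero_iff (X := qv Z) e).2 h0)
  · have h14 : hT τ (m • -κZ) i ≤ hX (m • -κ₁) i := by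
      rw [hX_canonical h12 h4 m i]
      refine hB Xc B Z q r τ 𝒜 (m • -κZ) (m • -κc) i h5 (fun t x => ?_) fun c hc x z hx hz => ?_
      · rw [coef_nsmul_neg, coef_nsmul_neg, h9]
      · rw [coef_nsmul_neg, coef_nsmul_neg, h13 c hc x z hx hz]
    exact ((hT_eq (X := qv Z) (qa τ) (m • -κZ) i).symm.le.trans h14).trans
      (hX_eq (X := qv Xc) (m • -κ₁) i).le

end Vale.Agent.P299.S
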