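import Vale.Agent.P299.S.Final3
import Vale.Agent.P299.S.Bochner
import Vale.Agent.P299.S.GeoTGlue
import Vale.Agent.P299.Q.Final4

/-!
# The results in the language `S`, from flat models and invariant cohomology
-/

open CategoryTheory TopologicalSpace Opposite AlgebraicGeometry

namespace Vale.Agent.P299.S

theorem bochnerVanishing' (h : BochnerVanishing) : Q.BochnerVanishing := by
  intro X κ hκ hSP N e D H he htw hH i
  have h1 : inter (X := pv X) (Function.update (fun _ => H) i D) =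
      Q.inter (Function.update (fun _ => H) i D) := inter_eq rfl _
  rw [← h1]
  exact h (sv X) κ D H N e i ((isCanonical_iff κ).1 hκ) ((semiPos_iff _).1 hSP)
    ((nonzero_iff e).2 he) ((isTwTensor_iff e _).1 htw) ((isAmple_iff H).1 hH)

/-- Anticanonical nonvanishing for varieties with `χ(X, O_X) ≠ 0`. -/
theorem eulerNonzeroT (h1 : KollarNadelVanishing) (h2 : HardLefschetz) (h3 : BochnerVanishing)
    (h4 : Q.NefCriterion) (h5 : Q.FlatModels) (X : Var) (κ : Div X.toPVar) (hκ : IsCanonical κ)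
    (hS : SemiPos (-κ)) (hχ : chi (0 : Div X.toPVar) ≠ 0) : ∃ m : ℕ, 0 < m ∧ HasSec (m • -κ) := by
  obtain ⟨m, hm, hs⟩ := Q.nonvanishing_of_core (kollarNadelVanishing' h1)
    (Q.coreStatement4 (kollarNadelVanishing' h1) (hardLefschetz' h2) (bochnerVanishing' h3) h4 h5)
    (qv X) κ ((isCanonical_iff (X := qv X) κ).2 hκ) ((semiPos_iff (X := qv X) (-κ)).2 hS)
    (by rw [← chi_eq (X := qv X) rfl]; exact hχ)
  exact ⟨m, hm, (hasSec_iff (X := qv X) _).1 hs⟩

/-- Anticanonical nonvanishing. -/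
theorem fullQ1T (h1 : KollarNadelVanishing) (h2 : HardLefschetz) (h3 : BochnerVanishing)
    (h4 : Q.NefCriterion) (h5 : Q.FlatModels) (h6 : StructureTheoremForms) (h7 : BundleCoh)
    (h8 : Q.InvariantCoh) (X : Var) (κ : Div X.toPVar) (hκ : IsCanonical κ)
    (hS : SemiPos (-κ)) : ∃ m : ℕ, 0 < m ∧ HasSec (m • -κ) := by
  obtain ⟨m, hm, hs⟩ := Q.anticanonicalNonvanishing_of_coh
    (Q.coreStatement4 (kollarNadelVanishing' h1) (hardLefschetz' h2) (bochnerVanishing' h3) h4 h5)
    Q.factorialStalks (structureTheoremF h6 h7) h8 (qv X) κ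
    ((isCanonical_iff (X := qv X) κ).2 hκ) ((semiPos_iff (X := qv X) (-κ)).2 hS)
  exact ⟨m, hm, (hasSec_iff (X := qv X) _).1 hs⟩

end Vale.Agent.P299.S
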