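import Vale.Agent.P299.S.Torus

/-!
# Fibre bundles with structure group a torus, and the geometric form of the structure theorem
-/

open CategoryTheory TopologicalSpace Opposite AlgebraicGeometry

namespace Vale.Agent.P299.S

/-- A chart for `q : X → B` with fibre `Z`: an open set `U ⊆ B`, its inverse image `W = q⁻¹(U)` in
`X` and a morphism `p : W → Z` over `ℂ` such that `(p, s) : W → Z × U` is an isomorphism, where `s`
is the restriction of `q`. -/
structure Chart {X B : PVar} (q : Hom X B) (Z : PVar) where
  /-- the open set -/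
  U : B.X.Opens
  /-- the inverse image of `U` -/
  W : Scheme.{0}
  /-- the inclusion of `W` -/
  j : W ⟶ X.X
  /-- the restriction of `q` -/
  s : W ⟶ U.toScheme
  inv : CategoryTheory.IsPullback j s q.f U.ι
  /-- the other projection -/
  p : W ⟶ Z.X
  prod : CategoryTheory.IsPullback p s Z.str (U.ι ≫ B.str)

/-- The point `x ∈ q⁻¹(U)` is mapped to `z` by the morphism `p : q⁻¹(U) → Z` of the chart. -/
def Chart.Val {X B Z : PVar} {q : Hom X B} (c : Chart q Z) (x : Pt X.X) (z : Pt Z.X) : Prop :=
  ∃ w : Pt c.W, im c.j w = x ∧ im c.p w = z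

/-- The charts of `𝒜` make `q : X → B` a locally trivial fibre bundle with fibre `Z` and structure
group `T`: the domains cover `B` and over a closed point `b` of two domains the two projections to
`Z` differ by an element of `T`. -/
def IsBundle {X B Z : PVar} (q : Hom X B) {r : ℕ} (τ : Act r Z) (𝒜 : Set (Chart q Z)) : Prop :=
  (∀ b : Pt B.X, ∃ c ∈ 𝒜, b ∈ c.U) ∧
  ∀ c ∈ 𝒜, ∀ c' ∈ 𝒜, ∀ b : Pt B.X, Closed b → b ∈ c.U → b ∈ c'.U →
    ∃ t : Fin r → ℂˣ, ∀ (x : Pt X.X) (z : Pt Z.X), Closed x → im q.f x = b → c.Val x z →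
      c'.Val x (im (τ.act t).f z)

/-- The divisor `D'` on the bundle corresponds to the divisor `D` on the fibre: it is the pull back
of `D` by the projection to `Z` in every chart. -/
def Corr {X B Z : PVar} {q : Hom X B} (𝒜 : Set (Chart q Z)) (D : Div Z) (D' : Div X) : Prop :=
  ∀ c ∈ 𝒜, ∀ (x : Pt X.X) (z : Pt Z.X), codim x = 1 → c.Val x z → coef D' x = coef D z

/-- [Leray; Mumford, Geometric invariant theory, §1] For a fibre bundle with structure group `T` and a
`T`-invariant divisor `D` on the fibre, `H^i(Z, O_Z(D))^T` is a direct summand of `H^i(Z, O_Z(D))`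
and of `H^i(X, O_X(D'))`, for the corresponding divisor `D'` on the bundle `X → B`. -/
def BundleCohomology : Prop :=
  ∀ (X B Z : Var) (q : Hom X.toPVar B.toPVar) (r : ℕ) (τ : Act r Z.toPVar)
    (𝒜 : Set (Chart q Z.toPVar)) (D : Div Z.toPVar) (D' : Div X.toPVar) (i : ℕ),
    IsBundle q τ 𝒜 → InvDiv τ D → Corr 𝒜 D D' → hT τ D i ≤ hX D i ∧ hT τ D i ≤ hX D' i

/-- [Demailly–Peternell–Schneider 1996; Campana–Demailly–Peternell, Rationally connected manifolds
and semipositivity of the Ricci curvature, Theorem 1.4] The structure theorem. Let `-K_X` have a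
smooth semipositive metric. There are a finite étale cover `π : Xc → X` and a locally trivial fibre
bundle `q : Xc → B` over a smooth projective variety `B` with trivial canonical bundle, whose fibre
`Z` is rationally connected with `-K_Z` semipositive and whose structure group is a torus `T` acting
effectively on `Z`. (The universal cover of `X` is the product of `ℂ^m`, Calabi–Yau and hyperkähler
manifolds and `Z`, with `π_1` acting by isometries; so `T` is the complexification of the closure of
a subgroup of finite index of the image of `π_1` in the isometry group of `Z`.) As `K_B = 0`, the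
canonical divisor of `Xc` corresponds to that of `Z`. -/
def StructureTheoremGeo : Prop :=
  ∀ (X : Var) (κ : Div X.toPVar), IsCanonical κ → SemiPos (-κ) →
    ∃ (Xc B Z : Var) (π : Hom Xc.toPVar X.toPVar) (q : Hom Xc.toPVar B.toPVar) (r : ℕ)
      (τ : Act r Z.toPVar) (𝒜 : Set (Chart q Z.toPVar)) (κ₁ κc : Div Xc.toPVar)
      (κZ : Div Z.toPVar),
      IsFinite π.f ∧ Etale π.f ∧ IsPullback π κ κ₁ ∧ IsCanonical κ₁ ∧
      IsBundle q τ 𝒜 ∧ IsCanonical (0 : Div B.toPVar) ∧ Effective τ ∧ IsCanT τ κZ ∧
      InvDiv τ κZ ∧ SemiPos (-κZ) ∧ (∀ i > 0, hX (0 : Div Z.toPVar) i = 0) ∧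
      IsCanonical κc ∧ Corr 𝒜 κZ κc

end Vale.Agent.P299.S
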