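import Vale.Agent.P299.S.Geo
import Vale.Agent.P299.S.ConvTorus
import Vale.Agent.P299.Q.CanonUnique

/-!
# The cohomological structure theorem from the geometric one
-/

open CategoryTheory TopologicalSpace Opposite AlgebraicGeometry

namespace Vale.Agent.P299.S

theorem coef_zero {X : PVar} (x : Pt X.X) : coef (0 : Div X) x = 0 := by
  unfold coef
  split_ifs <;> rfl

theorem coef_nsmul_neg {X : PVar} (D : Div X) (m : ℕ) (x : Pt X.X) :
    coef (m • -D) x = -(m * coef D x) := by
  unfold coef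
  split_ifs <;> simp

theorem hX_canonical {X : Var} {κ κ' : Div X.toPVar} (hκ : IsCanonical κ) (hκ' : IsCanonical κ')
    (m i : ℕ) : hX (m • -κ') i = hX (m • -κ) i := by
  have h := Q.IsCanonicalDivisor.hh_eq (X := qv X) ((isCanonical_iff (X := qv X) κ).2 hκ)
    ((isCanonical_iff (X := qv X) κ').2 hκ') m i
  exact (hX_eq (X := qv X) (m • -κ') i).trans (h.trans (hX_eq (X := qv X) (m • -κ) i).symm)

/-- The structure theorem in the form used in the proof, from its geometric form. -/
theorem structureTheorem_of_geo (h : StructureTheoremGeo) (hB : BundleCohomology) :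
    StructureTheorem := by
  intro X κ hκ hSP
  obtain ⟨Xc, B, Z, π, q, r, τ, 𝒜, κ₁, κc, κZ, h1, h2, h3, h4, h5, -, h7, h8, h9, h10, h11, h12,
    h13⟩ := h X κ hκ hSP
  refine ⟨Xc, π, κ₁, Z, r, τ, κZ, h1, h2, h3, h4, h7, h8, h9, h10, fun i hi => ?_, fun m i => ?_⟩
  · refine Nat.le_zero.1 ?_
    rw [← h11 i hi]
    refine (hB Xc B Z q r τ 𝒜 0 0 i h5 (fun t x => ?_) fun c _ x z _ _ => ?_).1
    · rw [coef_zero, coef_zero]
    · rw [coef_zero, coef_zero]
  · rw [hX_canonical h12 h4 m i]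
    refine (hB Xc B Z q r τ 𝒜 (m • -κZ) (m • -κc) i h5 (fun t x => ?_) fun c hc x z hx hz => ?_).2
    · rw [coef_nsmul_neg, coef_nsmul_neg, h9]
    · rw [coef_nsmul_neg, coef_nsmul_neg, h13 c hc x z hx hz]

end Vale.Agent.P299.S
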