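import Mathlib.LinearAlgebra.FiniteDimensional.Defs
import Vale.Agent.P299.S.Defs

/-!
# Resolution of singularities, in the language `S`
-/

open CategoryTheory TopologicalSpace Opposite AlgebraicGeometry

namespace Vale.Agent.P299.S

/-- `e` is an isomorphism of fields. -/
def IsFieldIso {L L' : Type} [Field L] [Field L'] (e : L → L') : Prop :=
  Function.Bijective e ∧ (∀ a b, e (a + b) = e a + e b) ∧ ∀ a b, e (a * b) = e a * e b

/-- [Hironaka] Resolution of singularities and of indeterminacies. Let `Y` be a smooth projective
variety, `L` a finite field extension of `ℂ(Y)` and `s_1, …, s_r ∈ L`, not all zero. There are a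
smooth projective variety `W` with function field `L` and a morphism `φ : W → Y` which induces the
inclusion `ℂ(Y) ⊆ L`, such that the rational map `(s_1 : … : s_r)` on `W` is a morphism: at every
point `x` some nonzero `s_i` divides all the `s_j` in the local ring. (`W` is a resolution of
singularities of the closure of the graph of `(s_1 : … : s_r)` on the normalization of `Y`
in `L`.) -/
def Hironaka : Prop :=
  ∀ (Y : Var) (L : Type) [Field L] [Algebra (K Y.toPVar) L] [FiniteDimensional (K Y.toPVar) L]
    (r : ℕ) (s : Fin r → L), (∃ i, s i ≠ 0) →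
    ∃ (W : Var) (φ : Hom W.toPVar Y.toPVar) (e : L → K W.toPVar), IsFieldIso e ∧
      (∀ a, e (algebraMap (K Y.toPVar) L a) = φ.pull a) ∧
      ∀ x : Pt W.X, ∃ i, s i ≠ 0 ∧ ∀ j, Reg (e (s j / s i)) x

end Vale.Agent.P299.S
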