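import Mathlib.FieldTheory.IntermediateField.Basic
import Vale.Agent.P299.S.Defs

/-!
# The published theorems which are the hypotheses of the results on P299
-/

open CategoryTheory TopologicalSpace Opposite AlgebraicGeometry

namespace Vale.Agent.P299.S

/-- [Kollár; Ohsawa; Matsumura, A vanishing theorem of Kollár–Ohsawa type; Fujino–Matsumura,
Injectivity theorem for pseudo-effective line bundles and its applications, Theorem D] Kollár–Nadel
vanishing: let `S` be a divisor on `X` with a smooth
semipositive metric, `M` nef and `A` ample on `Y`, and suppose that `c(S + φ^*M) - φ^*A` is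
pseudo-effective for some `c > 0`. Then `H^i(Y, φ_*(K_X + S + φ^*M)) = 0` for all `i > 0`.
(A singular metric on `S + φ^*M` whose curvature is bounded below by the pull back of a Kähler form
of `Y`, and whose multiplier ideal is trivial, is obtained from the smooth metrics of `S` and
of `M` and a small multiple of a singular semipositive metric of `c(S + φ^*M) - φ^*A`.) -/
def KollarNadelVanishing : Prop :=
  ∀ (X Y : Var) (φ : Hom X.toPVar Y.toPVar) (κ S M' A' : Div X.toPVar) (M A : Div Y.toPVar)
    (c i : ℕ) (F : Shf (Sp Y.X)),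
    IsCanonical κ → SemiPos S → IsNef M → IsAmple A → IsPullback φ M M' → IsPullback φ A A' →
    0 < c → IsPsef (c • (S + M') - A') → 0 < i → IsSheafOf (OverAt φ (κ + S + M')) F → VanH F i

/-- [Enoki; Takegoshi; Mourougane; Demailly–Peternell–Schneider, Pseudo-effective line bundles on
compact Kähler manifolds, Theorem 2.1.1] Hard Lefschetz: if `S` has a smooth semipositive metric
then the map `H^0(X, Ω^{n-i} ⊗ S) → H^i(X, K_X + S)` given by the `i`-th power of a Kähler form is
surjective; in particular the first space is nonzero if the second is. -/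
def HardLefschetz : Prop :=
  ∀ (X : Var) (κ S : Div X.toPVar) (i : ℕ), IsCanonical κ → SemiPos S → hX (κ + S) i ≠ 0 →
    ∃ p : ℕ, p + i = dim X.toPVar ∧ ∃ e : Ten X.toPVar p, Nonzero e ∧ IsAlt e ∧ IsTwTensor e S

/-- [Cao; Ou, Generic nefness of tangent sheaves; with Mehta–Ramanathan] If `-K_X` is nef, the
tensor powers of the tangent bundle are generically nef: a section of `(Ω^1_X)^{⊗N} ⊗ O(-D)` can
exist only if `D·H^{n-1} ≤ 0` for all ample `H`. -/
def GenericNefness : Prop :=
  ∀ (X : Var) (κ D H : Div X.toPVar) (N : ℕ) (e : Ten X.toPVar N) (i : Fin (dim X.toPVar)),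
    IsCanonical κ → IsNef (-κ) → Nonzero e → IsTwTensor e (-D) → IsAmple H →
    inter (Function.update (fun _ => H) i D) ≤ 0

/-- [Nakayama, Zariski-decomposition and abundance, III.1, V.1; Ein–Lazarsfeld–Mustață–Nakamaye–
Popa, Asymptotic invariants of base loci] If the order of vanishing of the linear systems
`|jD + B|` along every prime divisor over `Y` is bounded as `j → ∞`, then `D` is nef. -/
def NakayamaCriterion : Prop :=
  ∀ (Y : Var) (D B : Div Y.toPVar),
    (∀ (Y' : Var) (p : Hom Y'.toPVar Y.toPVar) (G : Pt Y'.X), p.Birational → codim G = 1 →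
      ∃ c : ℤ, ∀ j : ℕ, ∃ s : K Y.toPVar, s ≠ 0 ∧ IsSec (j • D + B) s ∧ ∀ P : Div Y'.toPVar,
        IsPullback p (j • D + B) P → ord (p.pull s) G + coef P G ≤ c) →
    IsNef D

/-- [Hironaka; Raynaud–Gruson] The flattening theorem, with resolution of singularities. Let `Z` be a
smooth projective variety and `k ⊆ ℂ(Z)` a subfield which contains `ℂ`. There are a smooth projective
variety `Y` with function field `k`, a normal integral scheme `Z₁` with a proper birational morphism
`b : Z₁ → Z` and an equidimensional morphism `c : Z₁ → Y`, and a resolution of singularities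
`a : Z' → Z₁`. A morphism is equidimensional if all components of its fibres have the same dimension;
then the image of a point of codimension one has codimension at most one. -/
def Flattening : Prop :=
  ∀ (Z : Var) (k : IntermediateField ℂ (K Z.toPVar)), ∃ (Y Z' : Var) (Z₁ : Scheme.{0})
    (a : Z'.X ⟶ Z₁) (b : Z₁ ⟶ Z.X) (c : Z₁ ⟶ Y.X)
    (μ : Hom Z'.toPVar Z.toPVar) (φ : Hom Z'.toPVar Y.toPVar),
    IsIntegral Z₁ ∧ (∀ z : Pt Z₁, IsIntegrallyClosed (stk Z₁ z)) ∧ IsProper b ∧ IsDominant a ∧
    μ.f = a ≫ b ∧ φ.f = a ≫ c ∧ μ.Birational ∧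
    (∀ g : K Z.toPVar, g ∈ k ↔ ∃ h, φ.pull h = μ.pull g) ∧
    ∀ z : Pt Z₁, codim z = 1 → codim (im c z) ≤ 1

end Vale.Agent.P299.S
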