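import Mathlib.RingTheory.EssentialFiniteness
import Vale.Agent.P299.S.Torus

/-!
# Resolution of singularities, in the language `S`
-/

open CategoryTheory TopologicalSpace Opposite AlgebraicGeometry

namespace Vale.Agent.P299.S

/-- `e` is a homomorphism of field extensions of `ℂ`. -/
def IsFieldHom {L L' : Type} [Field L] [Field L'] [Algebra ℂ L] [Algebra ℂ L'] (e : L → L') :
    Prop :=
  (∀ c : ℂ, e (algebraMap ℂ L c) = algebraMap ℂ L' c) ∧ (∀ a b, e (a + b) = e a + e b) ∧
    ∀ a b, e (a * b) = e a * e b

/-- [Hironaka] Resolution of singularities and of indeterminacies. Let `L` be a finitely generated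
field extension of `ℂ`, let `Y_1, …, Y_m` be smooth projective varieties with embeddings
`ℂ(Y_i) → L`, and `s_1, …, s_r ∈ L`, not all zero. There are a smooth projective variety `W` with
function field `L` and morphisms `W → Y_i` which induce the embeddings, such that the rational map
`(s_1 : … : s_r)` on `W` is a morphism: at every point `x` some nonzero `s_i` divides all the `s_l`
in the local ring. (`W` is a resolution of singularities of the closure of the image of the generic
point in `V × Y_1 × … × Y_m × ℙ^{r-1}`, `V` being any projective variety with function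
field `L`.) -/
def Resolution : Prop :=
  ∀ (L : Type) [Field L] [Algebra ℂ L] [Algebra.EssFiniteType ℂ L] (m : ℕ) (Y : Fin m → Var)
    (j : ∀ i, K (Y i).toPVar → L) (r : ℕ) (s : Fin r → L), (∀ i, IsFieldHom (j i)) →
    (∃ i, s i ≠ 0) →
    ∃ (W : Var) (e : L → K W.toPVar) (φ : ∀ i, Hom W.toPVar (Y i).toPVar), IsFieldHom e ∧
      Function.Bijective e ∧ (∀ i a, (φ i).pull a = e (j i a)) ∧
      ∀ x : Pt W.X, ∃ i, s i ≠ 0 ∧ ∀ l, Reg (e (s l / s i)) x

/-- [Hironaka; Kollár, Lectures on resolution of singularities, 3.9.1] Equivariant resolution of the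
indeterminacies of an invariant rational map: let the torus `T` act on `Z`, and let `Z ⇢ Y` be a
dominant `T`-invariant rational map, given by the embedding `ψ : ℂ(Y) → ℂ(Z)`. There are a smooth
projective variety `Z'` with a `T`-action, a birational equivariant morphism `μ : Z' → Z` and an
invariant morphism `φ : Z' → Y` which induces `ψ`. (`Z'` is an equivariant resolution of
singularities of the closure of the graph of the rational map in `Z × Y`.) -/
def EquivariantResolution : Prop :=
  ∀ (Z Y : Var) (r : ℕ) (τ : Act r Z.toPVar) (ψ : K Y.toPVar → K Z.toPVar), IsFieldHom ψ →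
    (∀ a, Inv τ (ψ a)) →
    ∃ (Z' : Var) (τ' : Act r Z'.toPVar) (μ : Hom Z'.toPVar Z.toPVar)
      (φ : Hom Z'.toPVar Y.toPVar), μ.Birational ∧
      (∀ t, (τ'.act t).f ≫ μ.f = μ.f ≫ (τ.act t).f) ∧ (∀ t, (τ'.act t).f ≫ φ.f = φ.f) ∧
      ∀ a, φ.pull a = μ.pull (ψ a)

end Vale.Agent.P299.S
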